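import Vale.Agent.P014Y.Nv.St
import Vale.Agent.P004K.Heeg
import Vale.Agent.P004M.TE.Tate

/-! # P014Y, block NV: the glue -/

set_option autoImplicit false
set_option linter.all false

open UpperHalfPlane NumberField Filter Polynomial
open scoped Classical

noncomputable section

namespace Vale.Agent.P014Y.Nv

open Vale.Agent.P022 Vale.Agent.P004K P027H P027M.M Vale.Agent.P022.H218.L3
open Vale.Agent.P004K.Hg (Bs)
open P004Z.EF (Par)
open P004M.TE (Pt ga ga_mul ga_one)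

namespace Gl

/-- the point `k τ` -/
def mu (k : ℕ) (τ : ℍ) : ℍ :=
  if h : 0 < k then ⟨k * τ, by simpa using mul_pos (Nat.cast_pos.2 h) τ.im_pos⟩ else τ

theorem mu_coe {k : ℕ} (h : 0 < k) (τ : ℍ) : (mu k τ : ℂ) = k * τ := by
  rw [mu, dif_pos h]

theorem eta (idl : IDL) {O : Type} [CommRing O] {J : O →+* ℂ} {ω : O} (B : Bs J ω) {N : ℕ}
    {I : Ideal O} (h : Cn N I) {m : ℕ → ℕ} {A : ℕ → Ideal O}
    (hm : ∀ i, (m i).Coprime N ∧ Cn (m i) (A i)) (hc : ∀ i k, i ≠ k → (m i).Coprime (m k))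
    (s : Finset ℕ) : ∃ η ∈ I, Bs J η ∧ ∀ i ∈ s, η ∈ A i := by
  have : ∃ I', Cn (N * ∏ i ∈ s, m i) I' ∧ I' ≤ I ∧ ∀ i ∈ s, I' ≤ A i := by
    induction s using Finset.induction_on with
    | empty => exact ⟨I, by simpa using h, le_rfl, by simp⟩
    | insert k s hk ih =>
      obtain ⟨I', h1, h2, h3⟩ := ih
      refine ⟨I' * A k, ?_, Ideal.mul_le_left.trans h2, fun i hi => ?_⟩
      · rw [Finset.prod_insert hk, mul_comm (m k), ← mul_assoc]
        exact ((idl O J ω B).2.1 _ _ _ _ h1 (hm k).2 ((hm k).1.symm.mul_left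
          (Nat.Coprime.prod_left fun i hi => hc i k fun e => hk (e ▸ hi)))).1
      · rcases Finset.mem_insert.1 hi with rfl | hi
        · exact Ideal.mul_le_right
        · exact Ideal.mul_le_left.trans (h3 i hi)
  obtain ⟨I', h1, h2, h3⟩ := this
  obtain ⟨η, h4, h5⟩ := B.ex h1
  exact ⟨η, h2 h4, h5, fun i hi => h3 i hi h4⟩

theorem cop {O : Type} [CommRing O] [CharZero O] {m c : ℕ} {A : Ideal O} (h : Cn m A) (hm : 0 < m)
    (k : m.Coprime c) : Cop c A := by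
  have h1 : ((m : ℤ) : O) ∈ A := (h.1 m).2 dvd_rfl
  refine ⟨fun e => ?_, (Ideal.eq_top_iff_one _).2 ?_⟩
  · rw [e, Ideal.mem_bot] at h1
    exact hm.ne' (by exact_mod_cast h1)
  · obtain ⟨u, v, e⟩ := Nat.isCoprime_iff_coprime.2 k
    have e' : (u : O) * (m : ℤ) + v * c = 1 := by exact_mod_cast congrArg (Int.cast : ℤ → O) e
    rw [← e']
    exact Submodule.add_mem_sup (A.mul_mem_left _ h1)
      (Ideal.mul_mem_left _ _ (Ideal.mem_span_singleton_self _))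

theorem uniq {O : Type} [CommRing O] {d δ : ℕ} {E E' : Ideal O} {θ : O}
    (h : Cn δ (Ideal.span {θ})) (h1 : Cn d E) (h2 : Cn d E') (k1 : θ ∈ E) (k2 : θ ∈ E') :
    E ≤ E' := fun x hx => by
  obtain ⟨k, e⟩ := h.2 x
  have l1 := (Ideal.span_singleton_le_iff_mem _).2 k1 e
  have l2 := (Ideal.span_singleton_le_iff_mem _).2 k2 e
  have := (h2.1 k).2 ((h1.1 k).1 (by simpa using E.sub_mem hx l1))
  simpa using E'.add_mem l2 this

section

variable {U : Ultrafilter ℕ} {L : Type} [Field L] [Algebra ℂ L] {π : (ℕ → ℂ) →ₐ[ℂ] L}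

theorem tp (top : TOP) {N a A B w Λ F x y} (hN : 0 < N) (D : Par N a A B w Λ F x y) (hF : F ∈ Hol)
    (up : Up U π) (lam : Derivation ℂ L L → (ℕ → ℂ) →+ L)
    (hl : ∀ D z, ((∀ᶠ n in (U : Filter ℕ), z n ∈ Λ) → lam D z = 0) ∧
      ((∀ᶠ n in (U : Filter ℕ), z n ∉ Λ) →
        D (π fun n => wp Λ (z n)) = π (fun n => dwp Λ (z n)) * lam D z))
    {m : ℕ} (hm : 0 < m) (τ : ℕ → ℍ) (z : ℕ → ℂ) {u : L} (e : (π fun n => jf (τ n)) = u)
    (hu : Transcendental ℂ u) (hz : ∀ᶠ n in (U : Filter ℕ), F (mu m (τ n)) - z n ∈ Λ) :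
    ∃ φ, (Al u φ ∧ ∀ D, lam D z = φ * D u) ∧
      φ * π (fun n => dd jf (τ n)) = m * π (fun n => dd F (mu m (τ n))) := by
  subst e
  obtain ⟨h1, φ, h2, h3, h4⟩ := top N a A B w Λ F x y hN D hF U L π up m τ (fun n => mu m (τ n)) hm
    (fun n => mu_coe hm _) hu
  refine ⟨φ, ⟨h2, fun D => ?_⟩, h3⟩
  rw [← h4 D _ ((hl D _).2 h1), eq_comm, ← sub_eq_zero, ← map_sub]
  exact (hl D _).1 hz

theorem al_sum {ι : Type} (s : Finset ι) {u : L} {φ : ι → L} (ε : ι → ℤ) (h : ∀ a, Al u (φ a)) :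
    Al u (∑ a ∈ s, ε a * φ a) := by
  induction s using Finset.induction_on with
  | empty => simpa [Al] using isAlgebraic_zero
  | insert k s hk ih =>
    rw [Finset.sum_insert hk]
    exact IsAlgebraic.add (IsAlgebraic.mul (isAlgebraic_int _) (h k)) ih

theorem al_self (u : L) : Al u u :=
  isAlgebraic_algebraMap (⟨u, Algebra.self_mem_adjoin_singleton ℂ u⟩ : Algebra.adjoin ℂ {u})

end

section

variable {K : Type} [Field K] [NumberField K] {j : K →+* Qb}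

/-- the ring class group fixes the point -/
theorem fix (hJ : JH) (r1 : P004K.RC1) (q : Iq K) {ω : 𝓞 K} (B : Bs (JJ j) ω) {N c : ℕ} (hN : 0 < N)
    (hc : 0 < c) {I : Ideal (𝓞 K)} (cn : Cn N I) {A A' : ℤ} {Λ : Submodule ℤ ℂ} {F : ℍ → ℂ}
    (h : IsLat Λ) (h2 : g2 Λ = -4 * A) (h3 : g3 Λ = -4 * A') {Y : Pt A A'}
    (hY : ∀ g σ τ τ', Ex σ g → Hp (JJ j) N I c τ → Cj0 σ N τ τ' → Un Λ (F τ') (ga g Y))
    {g : GQ} (hg : g ∈ Hc j c) : ga g Y = Y := by
  obtain ⟨η, hη, B⟩ := B.ex cn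
  obtain ⟨t, n, e⟩ := B.sq
  obtain ⟨τ, -, hτ⟩ := B.hp hc hN e cn hη
  obtain ⟨σ, ex⟩ := ex_ex g
  obtain ⟨ψ, tp⟩ := Hg.tp_of_j hJ (B.lat hc) (B.lat hc) ((Hg.hc_iff r1 q hc ex hg.1).1 hg)
  have k1 := hY g σ τ τ ex hτ ((Hg.st_cj hN hτ tp (ex.JJ hg.1)).1 hτ)
  have k2 := hY 1 1 τ τ Ex.one hτ (Cj0.refl hN τ)
  rw [ga_one] at k2
  exact ((un A A' Λ h h2 h3).2.1 _ _ _ _ k1 k2).2.2 (by simp)

end

theorem core (ult : ULT) (der : DER) (web : WEB) (lam : LAM) (top : TOP) (asy : ASY) (pair : PAIR)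
    (idl : IDL) (pts : PTS) (tra : TRA) (tor : TOR) (hJ : JH) (r1 : P004K.RC1) (r2 : RC2)
    {K : Type} [Field K] [NumberField K] {j : K →+* Qb} (q : Iq K) (upm : Upm K)
    {ω : 𝓞 K} {t n₀ : ℤ} {δ : ℕ} (B : Bs (JJ j) ω) (e : ω ^ 2 = t * ω - n₀)
    (hδ : 4 * n₀ - t ^ 2 = δ) (odd : Odd δ) {N G a A A' w Λ F x y} {I : Ideal (𝓞 K)}
    (rn : P004N.RN N G a) (D : Par N a A A' w Λ F x y) (cn : Cn N I) (co : N.Coprime δ)
    {p m : ℕ} {Y : ℕ → Pt A A'} (hp : p.Prime) (hm : m.Coprime p)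
    (hY : ∀ n g σ τ τ', Ex σ g → Hp (JJ j) N I (p ^ n) τ → Cj0 σ N τ τ' →
      Un Λ (F τ') (ga g (Y n)))
    (U : Ultrafilter ℕ) (hU : (U : Filter ℕ) ≤ atTop) {ι : Type} [Fintype ι] (a₀ : ι)
    (g : ι → ℕ → GQ) (ε : ι → ℤ) (hg : ∀ a n, g a n ∈ GK j ∧ g a n ^ m ∈ Hc j (p ^ n))
    (h0 : ∀ n, g a₀ n = 1) (hε : ε a₀ ≠ 0)
    (hd : ∀ a a', a ≠ a' → ∀ᶠ n in (U : Filter ℕ), (g a n)⁻¹ * g a' n ∉ Hc j (p ^ n))
    (ht : ∀ᶠ n in (U : Filter ℕ), IsOfFinAddOrder (∑ a, ε a • ga (g a n) (Y n))) : False := by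
  have hN := rn.pos
  have hF : F ∈ Hol := by
    have eF : F = (w : ℂ)⁻¹ • P004N.Pr fun n => (a n : ℂ) :=
      funext fun z => by rw [D.I_eq, div_eq_inv_mul]; rfl
    exact eF ▸ Subalgebra.smul_mem _ (P004Z.EF.prim_Pr rn.qe (by simp [rn.zero])).hol _
  have c0 : ∀ n, 0 < p ^ n := fun n => pow_pos hp.pos n
  have δ0 : 0 < δ := odd.pos
  obtain ⟨L, _, _, π, up⟩ := ult U
  choose lm hl using lam U L π up Λ D.lat
  obtain ⟨id1, id2, id3⟩ := idl _ _ ω B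
  have cθ := id3 t n₀ δ e hδ odd
  obtain ⟨mm, Am, hmm, hco⟩ := id1 (p * (N * δ)) (mul_pos hp.pos (mul_pos hN δ0))
  have m0 : ∀ i, 0 < mm i := fun i => one_pos.trans (hmm i).1
  have mp : ∀ i, (mm i).Coprime p := fun i => (hmm i).2.1.coprime_mul_right_right
  have mN : ∀ i, (mm i).Coprime (N * δ) := fun i => (hmm i).2.1.coprime_mul_left_right
  have cA : ∀ i n, Cop (p ^ n) (Am i) := fun i n =>
    cop (hmm i).2.2 (m0 i) ((mp i).pow_right n)
  choose h hh using fun i n => (r2 K j q _ (c0 n)).1 _ (cA i n)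
  -- the generic singular moduli
  obtain ⟨u, hu⟩ : ∃ u : ι → L, ∀ a, u a = π fun n => io (g a n (jc j (p ^ n))) := ⟨_, fun _ => rfl⟩
  have ut : ∀ a, Transcendental ℂ (u a) := fun a =>
    hu a ▸ tra K j q U L π hU up p (g a) hp.one_lt fun n => (hg a n).1
  have u0 : u a₀ = π fun n => io (jc j (p ^ n)) := by simp only [hu, h0, AlgEquiv.one_apply]
  have pr : ∀ a : {a // Al (u a) (u a₀)}, ∃ (d : ℕ) (E : Ideal (𝓞 K)), 0 < d ∧ d.Coprime p ∧
      Cn d E ∧ 2 * ω - t ∈ E ∧ ∀ᶠ n in (U : Filter ℕ), Ar j (p ^ n) E (g a n) := fun a =>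
    pair K j q upm ω t n₀ B e U L π hU up p m (g a) hp hm (hg a) (by rw [← hu, ← u0]; exact a.2)
  choose d E d0 dp cE θE aE using pr
  have dδ : ∀ a, d a ∣ δ := fun a => Int.natCast_dvd_natCast.1 (((cE a).1 δ).1
    ((Ideal.span_singleton_le_iff_mem _).2 (θE a) ((cθ.1 δ).2 dvd_rfl)))
  have dm : ∀ a i, (d a).Coprime (mm i) := fun a i =>
    ((mN i).coprime_mul_left_right.coprime_dvd_right (dδ a)).symm
  obtain ⟨u1, u2, -⟩ := un A A' Λ D.lat D.g2_eq D.g3_eq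
  choose z hz using fun (i : ℕ) (a : ι) n => u1 (ga (g a n * h i n) (Y n))
  have zz : ∀ {s i a n}, Un Λ s (ga (g a n * h i n) (Y n)) → s - z i a n ∈ Λ := fun k =>
    (u2 _ _ _ _ k (hz _ _ _)).2.1 rfl
  -- the points
  have pt : ∀ s : Finset ℕ, ∃ (η : 𝓞 K) (t' n' : ℤ) (τ : ℕ → ℍ), Bs (JJ j) η ∧
      η ^ 2 = t' * η - n' ∧ η ∈ I ∧ η ∈ Ideal.span {2 * ω - t} ∧ (∀ i ∈ s, η ∈ Am i) ∧
      ∀ n, τ n * ((p ^ n : ℕ) * (t' - JJ j η) : ℂ) = 1 ∧ Hp (JJ j) N I (p ^ n) (τ n) ∧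
        jf (τ n) = io (jc j (p ^ n)) := fun s => by
    obtain ⟨η, k1, B', k2⟩ := eta idl B (id2 _ _ _ _ cn cθ co).1
      (fun i => ⟨mN i, (hmm i).2.2⟩) hco s
    obtain ⟨t', n', e'⟩ := B'.sq
    have i1 : η ∈ I := Ideal.mul_le_left k1
    choose τ k3 k4 using fun n => B'.hp (c0 n) hN e' cn i1
    exact ⟨η, t', n', τ, B', e', i1, Ideal.mul_le_right k1, k2, fun n => ⟨k3 n, k4 n, by
      rw [← jL_lat, ← Hg.At.j (k4 n), (r1 K j q _ (c0 n)).1]⟩⟩
  have bd : ∀ (η : 𝓞 K) (t' n' : ℤ) (τ : ℕ → ℍ) i, Bs (JJ j) η → η ^ 2 = t' * η - n' → η ∈ I →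
      η ∈ Ideal.span {2 * ω - t} → η ∈ Am i →
      (∀ n, τ n * ((p ^ n : ℕ) * (t' - JJ j η) : ℂ) = 1 ∧ Hp (JJ j) N I (p ^ n) (τ n) ∧
        jf (τ n) = io (jc j (p ^ n))) → ∀ a : {a // Al (u a) (u a₀)},
      ∃ φ, (Al (u a₀) φ ∧ ∀ D, lm D (z i a) = φ * D (u a₀)) ∧
        φ * π (fun n => dd jf (τ n)) =
          (d a * mm i : ℕ) * π (fun n => dd F (mu (d a * mm i) (τ n))) :=
    fun η t' n' τ i B' e' i1 i2 i3 hτ a => by
      have k0 := mul_pos (d0 a) (m0 i)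
      refine tp top hN D hF up lm hl k0 τ _ (by simp only [u0, (hτ _).2.2]) (ut a₀) ?_
      filter_upwards [aE a] with n ar
      obtain ⟨k1, k2⟩ := id2 _ _ _ _ (cE a) (hmm i).2.2 (dm a i)
      obtain ⟨σ, ex⟩ := ex_ex (g a n * h i n)
      exact zz (hY n _ σ _ _ ex (hτ n).2.1 ((pts.2 K j q η t' n' B' e' N _ _ I _ (τ n) _ hN k0 (c0 n)
        ((co.coprime_dvd_right (dδ a)).mul_right (mN i).coprime_mul_right_right.symm) cn k1 i1
        (k2 η ((Ideal.span_singleton_le_iff_mem _).2 (θE a) i2) i3) (hτ n).1 (mu_coe k0 _)).2 _ σ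
        ((r2 K j q _ (c0 n)).2.2.1 _ _ _ _ (cop (cE a) (d0 a) ((dp a).pow_right n)) (cA i n) ar
          (hh i n)) ex))
  have b1 : ∀ i (a : {a // Al (u a) (u a₀)}), ∃ φ, Al (u a₀) φ ∧
      ∀ D, lm D (z i a) = φ * D (u a₀) := fun i a => by
    obtain ⟨η, t', n', τ, B', e', i1, i2, i3, hτ⟩ := pt {i}
    exact (bd η t' n' τ i B' e' i1 i2 (i3 i (by simp)) hτ a).imp fun _ k => k.1
  have b2 : ∀ i a, ∃ φ, Al (u a) φ ∧ ∀ D, lm D (z i a) = φ * D (u a) := fun i a => by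
    obtain ⟨η, t', n', τ, B', e', i1, -, i3, hτ⟩ := pt {i}
    choose σ ex using fun n => ex_ex (g a n)
    choose σ' ex' using fun n => ex_ex (h i n)
    choose τ' k using fun n => ex_cj0 (σ n) (mul_pos hN (m0 i)) (τ n)
    refine (tp top hN D hF up lm hl (m0 i) τ' _ ?_ (ut a) (.of_forall fun n => ?_)).imp
      fun _ k => k.1
    · simp only [hu, (k _).jf, (hτ _).2.2, ex _ _]
    · exact zz (hY n _ _ _ _ ((ex n).mul (ex' n)) (hτ n).2.1 (((pts.2 K j q η t' n' B' e' N _ _ I _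
        (τ n) _ hN (m0 i) (c0 n) (mN i).coprime_mul_right_right.symm cn (hmm i).2.2 i1
        (i3 i (by simp)) (hτ n).1 (mu_coe (m0 i) _)).2 _ _ (hh i n) (ex' n)).trans
        (pts.1 _ N _ _ _ _ _ hN (m0 i) (k n) (mu_coe (m0 i) _) (mu_coe (m0 i) _))))
  choose φ φa φl using b1
  choose ψ ψa ψl using b2
  -- the relations
  obtain ⟨M, M0, hM⟩ := tor K j q A A' p D.disc hp.pos
  have fx : ∀ n, ∀ k ∈ Hc j (p ^ n), ga k (Y n) = Y n := fun n k hk =>
    fix hJ r1 q B hN (c0 n) cn D.lat D.g2_eq D.g3_eq (hY n) hk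
  have fx' : ∀ n (k k' : GQ), k⁻¹ * k' ∈ Hc j (p ^ n) → ga k' (Y n) = ga k (Y n) := fun n k k' hk => by
    rw [← mul_inv_cancel_left k k', ga_mul, fx n _ hk]
  obtain ⟨ex, -, ker, vv⟩ := Hg.un_iff (A := A) (B := A') D.lat D.g2_eq D.g3_eq
  have rel : ∀ (D : Derivation ℂ L L) i, ∑ a, (ε a : L) * lm D (z i a) = 0 := fun D i => by
    have k : lm D (M • ∑ a, ε a • z i a) = 0 := (hl D _).1 (by
      filter_upwards [ht] with n hn
      have k1 := hM n _ (fun k hk => by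
        rw [map_sum]
        refine Finset.sum_congr rfl fun a _ => ?_
        rw [map_zsmul, ← ga_mul, fx' n (g a n) _ (by
          simpa only [inv_inv, mul_assoc] using (r1 K j q _ (c0 n)).2.2.1.conj_mem _ hk (g a n)⁻¹)]) hn
      have k2 : M • ∑ a, ε a • ga (g a n * h i n) (Y n) = 0 := by
        have := congrArg (ga (h i n)) k1
        rw [map_zero, map_nsmul, map_sum] at this
        rw [← this]
        refine congrArg _ (Finset.sum_congr rfl fun a _ => ?_)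
        rw [map_zsmul, ← ga_mul, fx' n (g a n * h i n) (h i n * g a n) (by
          simpa only [inv_inv, mul_assoc, mul_inv_rev] using (r1 K j q _ (c0 n)).2.2.2.1 _
            (inv_mem (hh i n).1) _ (inv_mem (hg a n).1))]
      rw [← ker, Pi.smul_apply, Finset.sum_apply, map_nsmul, map_sum]
      have := congrArg (P004M.TE.pa io) k2
      rw [map_zero, map_nsmul, map_sum] at this
      rw [← this]
      refine congrArg _ (Finset.sum_congr rfl fun a _ => ?_)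
      rw [Pi.smul_apply, map_zsmul, map_zsmul, (vv _ _).1 (hz i a n)])
    have : CharZero L := charZero_of_injective_algebraMap (algebraMap ℂ L).injective
    rw [map_nsmul, map_sum, nsmul_eq_mul, mul_eq_zero] at k
    have k' := k.resolve_left (by exact_mod_cast M0.ne')
    simp only [map_zsmul] at k'
    simpa only [zsmul_eq_mul] using k'
  have dep := web L {a // ¬ Al (u a) (u a₀)} (u a₀) (fun a => u a)
    (fun i => ∑ a, ε a.1 * φ i a) (fun a i => ε a.1 * ψ i a) (ut a₀) (fun a => a.2)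
    (fun i => al_sum _ (fun a : {a // Al (u a) (u a₀)} => ε a) (φa i))
    (fun a i => IsAlgebraic.mul (isAlgebraic_int _) (ψa i a)) fun D i => by
      rw [← rel D i, ← Fintype.sum_subtype_add_sum_subtype fun a => Al (u a) (u a₀),
        Finset.sum_mul]
      simp only [φl, mul_assoc]
      simp only [ψl]
  obtain ⟨s, c, hc, i₀, hi, ci⟩ := not_linearIndependent_iff.1 dep
  obtain ⟨η, t', n', τ, B', e', i1, i2, i3, hτ⟩ := pt s
  obtain ⟨D₀, hD⟩ := (der L (u a₀)).1 (ut a₀)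
  have fm : ∀ i ∈ s, ∀ a, φ i a * π (fun n => dd jf (τ n)) =
      (d a * mm i : ℕ) * π (fun n => dd F (mu (d a * mm i) (τ n))) := fun i hi a => by
    obtain ⟨φ', ⟨-, k1⟩, k2⟩ := bd η t' n' τ i B' e' i1 i2 (i3 i hi) hτ a
    have := (k1 D₀).symm.trans (φl i a D₀)
    rw [hD, mul_one, mul_one] at this
    exact this ▸ k2
  let S := s ×ˢ (Finset.univ : Finset {a // Al (u a) (u a₀)})
  let f : ℕ × {a // Al (u a) (u a₀)} → ℕ := fun x => d x.2 * mm x.1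
  let W : ℕ × {a // Al (u a) (u a₀)} → ℂ := fun x => c x.1 * ε x.2 * f x
  have inj : ∀ x x', f x = f x' → x = x' := fun ⟨i, b⟩ ⟨i', b'⟩ k => by
    obtain rfl : i = i' := by
      by_contra ne
      exact (hmm i).1.ne' (Nat.Coprime.eq_one_of_dvd ((dm b' i).symm.mul_right (hco i i' ne))
        ((dvd_mul_left _ _).trans (dvd_of_eq k)))
    have k' : d b = d b' := Nat.eq_of_mul_eq_mul_right (m0 i) k
    have eE : E b = E b' := le_antisymm (uniq cθ (cE b) (k' ▸ cE b') (θE b) (θE b'))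
      (uniq cθ (k' ▸ cE b') (cE b) (θE b') (θE b))
    obtain rfl : b = b' := by
      by_contra ne
      obtain ⟨n, ⟨k1, k2⟩, k3⟩ := (((aE b).and (aE b')).and
        (hd b b' fun e => ne (Subtype.ext e))).exists
      exact k3 (((r2 K j q _ (c0 n)).2.2.2.1 _ _ _ k1).1 (eE ▸ k2))
    rfl
  have z0 : ∀ᶠ n in (U : Filter ℕ), ∑ x ∈ S, W x * dd F (mu (f x) (τ n)) = 0 := by
    refine (up fun n => ∑ x ∈ S, W x * dd F (mu (f x) (τ n))).1 ?_
    have k : (fun n => ∑ x ∈ S, W x * dd F (mu (f x) (τ n))) =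
        ∑ x ∈ S, W x • fun n => dd F (mu (f x) (τ n)) := by
      ext n
      simp only [Finset.sum_apply, Pi.smul_apply, smul_eq_mul]
    have k' := congrArg (· * π fun n => dd jf (τ n)) hc
    simp only [zero_mul, Finset.sum_mul, smul_mul_assoc] at k'
    rw [k, map_sum, ← k', Finset.sum_product]
    refine Finset.sum_congr rfl fun i hi => ?_
    rw [Finset.smul_sum]
    refine Finset.sum_congr rfl fun b _ => ?_
    rw [map_smul, mul_assoc, fm i hi b]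
    simp only [W, f, Algebra.smul_def, map_mul, map_intCast, map_natCast, mul_assoc]
  have x0 : (i₀, (⟨a₀, al_self _⟩ : {a // Al (u a) (u a₀)})) ∈ S := by simp [S, hi]
  have fin := asy N G a A A' w Λ F x y rn D U (S.image f) (fun k => ∑ x ∈ S with f x = k, W x) τ
    (fun k n => mu k (τ n)) (fun k hk => by
      obtain ⟨x, -, rfl⟩ := Finset.mem_image.1 hk
      exact ⟨mul_pos (d0 _) (m0 _), fun n => mu_coe (mul_pos (d0 _) (m0 _)) _⟩) ?_ ?_ _
    (Finset.mem_image_of_mem f x0)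
  · rw [Finset.sum_eq_single_of_mem (i₀, (⟨a₀, al_self _⟩ : {a // Al (u a) (u a₀)}))
      (by simp [x0]) fun b hb ne => absurd (inj _ _ (Finset.mem_filter.1 hb).2) ne] at fin
    refine mul_ne_zero (mul_ne_zero ci (Int.cast_ne_zero.2 hε)) ?_ fin
    exact Nat.cast_ne_zero.2 (mul_pos (d0 _) (m0 _)).ne'
  · have : ∀ n, (-1 / (τ n : ℂ)).im = (p : ℝ) ^ n * (JJ j η).im := fun n => by
      rw [show (-1 / τ n : ℂ) = -((p ^ n : ℕ) * (t' - JJ j η)) by
        rw [div_eq_iff (τ n).ne_zero]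
        linear_combination (hτ n).1]
      simp [← Complex.ofReal_natCast, ← Complex.ofReal_pow]
    simp only [this]
    exact ((tendsto_pow_atTop_atTop_of_one_lt (Nat.one_lt_cast.2 hp.one_lt)).atTop_mul_const
      B'.im).mono_left hU
  · filter_upwards [z0] with n hn
    rw [← hn, ← Finset.sum_fiberwise_of_maps_to (g := f) fun x hx => Finset.mem_image_of_mem f hx]
    refine Finset.sum_congr rfl fun k _ => ?_
    rw [Finset.sum_mul]
    exact Finset.sum_congr rfl fun x hx => by rw [(Finset.mem_filter.1 hx).2]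

end Gl

theorem nv (ult : ULT) (der : DER) (web : WEB) (lam : LAM) (top : TOP) (asy : ASY) (pair : PAIR)
    (idl : IDL) (pts : PTS) (tra : TRA) (tor : TOR) (hJ : JH) (r1 : P004K.RC1) (r2 : RC2) : NV := by
  intro K _ _ j q upm ω t n₀ δ B e hδ odd N G a A A' w Λ F x y I rn D cn co p m r Y hp hm hY
  let P : ℕ → ∀ d : ℕ, (Fin (d + 1) → GQ) → Prop := fun n d g =>
    (∀ a, g a ∈ GK j ∧ g a ^ m ∈ Hc j (p ^ n)) ∧ g 0 = 1
  let Q : ℕ → ∀ d : ℕ, (Fin (d + 1) → ℤ) → (Fin (d + 1) → GQ) → Prop := fun n d ε g =>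
    (∀ a a', a ≠ a' → (g a)⁻¹ * g a' ∉ Hc j (p ^ n)) ∧
      IsOfFinAddOrder (∑ a, ε a • ga (g a) (Y n))
  have key : ∀ d (ε : Fin (d + 1) → ℤ), ∀ᶠ n in atTop, ε 0 ≠ 0 → ¬ ∃ g, P n d g ∧ Q n d ε g := by
    intro d ε
    by_cases hε : ε 0 = 0
    · exact .of_forall fun _ k => absurd hε k
    by_contra k
    have : (atTop ⊓ 𝓟 {n | ∃ g, P n d g ∧ Q n d ε g}).NeBot := frequently_iff_neBot.1
      ((not_eventually.1 k).mono fun n k => by simpa [hε] using k)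
    have le := Ultrafilter.of_le (atTop ⊓ 𝓟 {n | ∃ g, P n d g ∧ Q n d ε g})
    have ev := le_principal_iff.1 (le.trans inf_le_right)
    have : ∀ n, ∃ g, P n d g ∧ ((∃ g, P n d g ∧ Q n d ε g) → Q n d ε g) := fun n => by
      by_cases k : ∃ g, P n d g ∧ Q n d ε g
      · exact k.imp fun g h => ⟨h.1, fun _ => h.2⟩
      · exact ⟨fun _ => 1, ⟨fun _ => ⟨one_mem _, by simp⟩, rfl⟩, fun h => absurd h k⟩
    choose g g1 g2 using this
    exact Gl.core ult der web lam top asy pair idl pts tra tor hJ r1 r2 q upm B e hδ odd rn D cn co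
      hp hm hY _ (le.trans inf_le_left) 0 (fun a n => g n a) ε (fun a n => (g1 n).1 a)
      (fun n => (g1 n).2) hε (fun a a' ne => Eventually.mono ev fun n k => (g2 n k).1 a a' ne)
      (Eventually.mono ev fun n k => (g2 n k).2)
  filter_upwards [(eventually_all_finset (Finset.range r)).2 fun d _ => (eventually_all_finset
    (Fintype.piFinset fun _ : Fin (d + 1) => Finset.Icc (-r : ℤ) r)).2 fun ε _ => key d ε]
    with n hn T ε hr hT h1 h2 h3
  obtain ⟨d, hd⟩ := Nat.exists_eq_succ_of_ne_zero hT.card_pos.ne'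
  let f : Fin (d + 1) ≃ T := (Finset.equivFinOfCardEq hd).symm
  have c0 := pow_pos hp.pos n
  obtain ⟨-, -, nm, cm, -⟩ := r1 K j q _ c0
  refine hn d (Finset.mem_range.2 (by omega)) (fun a => ε (f a)) (Fintype.mem_piFinset.2 fun a =>
    Finset.mem_Icc.2 (abs_le.1 (h1 _ (f a).2).2.2.2)) (h1 _ (f 0).2).2.2.1
    ⟨fun a => (f 0 : GQ)⁻¹ * f a, ⟨fun a => ⟨mul_mem (inv_mem (h1 _ (f 0).2).1) (h1 _ (f a).2).1, ?_⟩,
      inv_mul_cancel _⟩, fun a a' ne k => ne (f.injective (Subtype.ext (h2 _ (f a).2 _ (f a').2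
        (by simpa [mul_assoc] using k)))), ?_⟩
  · have k : Commute (((f 0 : GQ)⁻¹ : GQ) : GQ ⧸ Hc j (p ^ n)) (f a : GQ) := by
      rw [← commutatorElement_eq_one_iff_commute]
      exact (QuotientGroup.eq_one_iff _).2 (cm _ (inv_mem (h1 _ (f 0).2).1) _ (h1 _ (f a).2).1)
    rw [← QuotientGroup.eq_one_iff, QuotientGroup.mk_pow, QuotientGroup.mk_mul, k.mul_pow,
      ← QuotientGroup.mk_pow, ← QuotientGroup.mk_pow, inv_pow,
      (QuotientGroup.eq_one_iff _).2 (inv_mem (h1 _ (f 0).2).2.1),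
      (QuotientGroup.eq_one_iff _).2 (h1 _ (f a).2).2.1, mul_one]
  · have := (ga (f 0 : GQ)⁻¹).isOfFinAddOrder h3
    rw [← Finset.sum_coe_sort, ← f.sum_comp, map_sum] at this
    simpa only [map_zsmul, ga_mul] using this

end Vale.Agent.P014Y.Nv
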