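import Vale.Agent.P014Y.Nv.St
import Vale.Agent.P004K.Rc.Q
import Vale.Agent.P004K.Hg.Bd
import Vale.Agent.P004K.Lt

/-! # P014Y, block NV: row PAIR -/

set_option autoImplicit false
set_option linter.all false

open UpperHalfPlane NumberField Filter Polynomial
open scoped Classical

noncomputable section

namespace Vale.Agent.P014Y.Nv

open Vale.Agent.P022 Vale.Agent.P004K P027H P027M.M Vale.Agent.P022.H218.L3
open Vale.Agent.P004K.Hg (Bs mem_ov st_end kl_Oc st_int le_st)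

namespace Pa

theorem big {τ : ℍ} (h : 1 < τ.im) {a b : ℤ} (z : (a : ℂ) * τ + b ≠ 0) :
    1 ≤ ‖(a : ℂ) * τ + b‖ ∧ (a ≠ 0 → 1 < ‖(a : ℂ) * τ + b‖) := by
  have k : a ≠ 0 → 1 < ‖(a : ℂ) * τ + b‖ := fun a0 => by
    refine lt_of_lt_of_le ?_ (Complex.abs_im_le_norm _)
    have : (1 : ℝ) ≤ |(a : ℝ)| := by exact_mod_cast Int.one_le_abs a0
    simp only [Complex.add_im, Complex.mul_im, Complex.intCast_re, Complex.intCast_im, coe_im,
      zero_mul, add_zero, abs_mul, abs_of_pos τ.im_pos]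
    nlinarith
  refine ⟨?_, k⟩
  rcases eq_or_ne a 0 with rfl | a0
  · simp only [Int.cast_zero, zero_mul, zero_add, ne_eq, Int.cast_eq_zero] at z ⊢
    rw [Complex.norm_intCast]
    exact_mod_cast Int.one_le_abs z
  · exact (k a0).le

/-- points high in the half plane with the same invariant have the same height -/
theorem im_eq (jh : JH) {τ τ' : ℍ} (h : 1 < τ.im) (h' : 1 < τ'.im) (e : jf τ = jf τ') : τ.im = τ'.im := by
  obtain ⟨μ, k⟩ := (jh _ _ (isLat τ) (isLat τ')).1 (by rw [jL_lat, jL_lat, e])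
  have m0 := k.1
  obtain ⟨a, b, e1⟩ := mem_lat.1 ((k.2 1).1 (one_lat τ))
  obtain ⟨c, d, e2⟩ := mem_lat.1 ((k.2 τ).1 (tau_lat τ))
  obtain ⟨a', b', e3⟩ := mem_lat.1 ((k.symm.2 1).1 (one_lat τ'))
  obtain ⟨c', d', e4⟩ := mem_lat.1 ((k.symm.2 τ').1 (tau_lat τ'))
  rw [mul_one] at e1 e3
  obtain ⟨n1, n2⟩ := big h' (e1 ▸ m0 : (a : ℂ) * τ' + b ≠ 0)
  obtain ⟨n3, n4⟩ := big h (e3 ▸ inv_ne_zero m0 : (a' : ℂ) * τ + b' ≠ 0)
  rw [e1] at n1 n2
  rw [e3, norm_inv] at n3 n4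
  have p0 := norm_pos_iff.2 m0
  obtain rfl : a = 0 := by_contra fun z => by
    have := (one_le_inv₀ p0).1 n3
    linarith [n2 z]
  obtain rfl : a' = 0 := by_contra fun z => by
    have := (one_lt_inv₀ p0).1 (n4 z)
    linarith
  simp only [Int.cast_zero, zero_mul, zero_add] at e1 e3
  have bb : b * b' = 1 := by
    have : (b : ℂ) * b' = 1 := by rw [e1, e3, mul_inv_cancel₀ m0]
    exact_mod_cast this
  rw [← e1] at e2
  rw [← e3] at e4
  have i2 := congrArg Complex.im e2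
  have i4 := congrArg Complex.im e4
  simp only [Complex.add_im, Complex.mul_im, Complex.intCast_re, Complex.intCast_im, coe_im,
    zero_mul, add_zero] at i2 i4
  have cc : c * c' = 1 := by
    have bb' : (b : ℝ) * b' = 1 := by exact_mod_cast bb
    have : (c : ℝ) * c' = 1 := mul_right_cancel₀ τ.im_pos.ne' (by
      linear_combination (c : ℝ) * i4 + b' * i2 + τ.im * bb')
    exact_mod_cast this
  rcases Int.eq_one_or_neg_one_of_mul_eq_one bb with rfl | rfl <;>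
    rcases Int.eq_one_or_neg_one_of_mul_eq_one cc with rfl | rfl <;>
    push_cast at i2 <;> linarith

variable {O : Type} [CommRing O] {J : O →+* ℂ} {η : O} {I : Ideal O} {c N : ℕ}

/-- the point of an ideal with cyclic quotient -/
theorem ex_pt (B : Bs J η) (hc : 0 < c) (hN : 0 < N) (h : Cn N I) (hη : η ∈ I) :
    ∃ τ : ℍ, τ.im = (J η).im / N * c ∧ jf τ = jL (st J I (Oc J c)) := by
  obtain ⟨t, n, e⟩ := B.sq
  have n0 : (N : ℂ) ≠ 0 := Nat.cast_ne_zero.2 hN.ne'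
  have i : (c * (J η - t) / N : ℂ).im = (J η).im / N * c := by
    rw [Complex.div_natCast_im]
    simp
    ring
  refine ⟨⟨c * (J η - t) / N, i ▸ mul_pos (div_pos B.im (Nat.cast_pos.2 hN)) (Nat.cast_pos.2 hc)⟩,
    i, ?_⟩
  rw [← jL_lat, B.st_Oc hc hN e h hη]
  congr 1
  ext z
  rw [mem_ov, B.Oc_eq hc]
  simp only [mem_lat, B.coe, coe_mk]
  constructor
  · rintro ⟨u, v, rfl⟩
    exact ⟨-u, 0, v, by push_cast; ring⟩
  · rintro ⟨a, u, v, k⟩
    refine ⟨u * N - a, v + u * c * t, ?_⟩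
    rw [← sub_add_cancel z (a * (c * (t - J η) / N)), ← k]
    push_cast
    field_simp
    ring

variable {K : Type} [Field K] [NumberField K] {j : K →+* Qb}

/-- the point of any ideal -/
theorem ex_cm {ω : 𝓞 K} (B : Bs (JJ j) ω) (hc : 0 < c) {I : Ideal (𝓞 K)} (h : I ≠ ⊥) :
    ∃ τ : ℍ, Cm (c * JJ j ω) τ ∧ jf τ = jL (st (JJ j) I (Oc (JJ j) c)) := by
  have l : IsLat (st (JJ j) I (Oc (JJ j) c)) := (B.lat hc).of_between le_st
    (Nat.pos_of_ne_zero (mt Ideal.absNorm_eq_zero_iff.1 h)) fun z hz => by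
      simpa using st_int (m := Ideal.absNorm I) (by simpa using I.absNorm_mem) hz
  obtain ⟨μ, τ, k⟩ := ex_lat l
  refine ⟨τ, fun z hz => (k.2 _).2 ?_, by rw [← jL_lat, jL_hom k (isLat τ)]⟩
  have := st_end (kl_Oc ω) _ ((k.2 z).1 hz)
  rwa [map_mul, map_natCast, mul_left_comm] at this

theorem cop_pow {p : ℕ} {I : Ideal (𝓞 K)} (h : Cop p I) (n : ℕ) : Cop (p ^ n) I :=
  ⟨h.1, by
    rw [Nat.cast_pow, ← Ideal.span_singleton_pow]
    exact Ideal.sup_pow_eq_top h.2⟩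

theorem ar_pow (h2 : RC2) (q : Iq K) (hc : 0 < c) {I : Ideal (𝓞 K)} {g : GQ} (h : Cop c I) (a : Ar j c I g)
    (m : ℕ) : Cop c (I ^ (m + 1)) ∧ Ar j c (I ^ (m + 1)) (g ^ (m + 1)) := by
  induction m with
  | zero => simpa using ⟨h, a⟩
  | succ m ih =>
    rw [pow_succ, pow_succ g]
    exact ⟨Rc.cop_mul ih.1 h, (h2 K j q c hc).2.2.1 _ _ _ _ ih.1 h ih.2 a⟩

end Pa

open Pa

/-- **row PAIR** -/
theorem pair (h2 : RC2) (jh : JH) (rat : RAT) (and : AND) (cma : CMA) (idl : IDL) : PAIR := by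
  intro K _ _ j q up ω t n₀ B e U L _ _ π hU hπ p m g hp mp hg al
  have c0 : ∀ n, 0 < p ^ n := fun n => pow_pos hp.pos n
  have R := fun n => h2 K j q (p ^ n) (c0 n)
  obtain ⟨Ψ, Ψ0, hΨ⟩ := rat U L π hπ _ _ al
  choose D d1 d2 using fun n => (R n).2.1 (g n) (hg n).1 p hp.pos
  have d3 : ∀ n, Cop p (D n) := fun n => Rc.cop_dvd (m := p ^ n) (mul_comm p _ ▸ d1 n)
  have d4 : ∀ n, Cop (p ^ n) (D n) := fun n => Rc.cop_dvd (d1 n)
  obtain ⟨μ, A, a1, a2⟩ := (idl _ (JJ j) ω B).1 p hp.pos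
  have m0 : ∀ k, 0 < μ k := fun k => one_pos.trans (a1 k).1
  have a3 : ∀ k, Cop p (A k) := fun k =>
    Hg.cop_int (a1 k).2.2 (m0 k) (Nat.isCoprime_iff_coprime.2 (a1 k).2.1)
  have a4 := fun k n => cop_pow (a3 k) n
  choose h a5 using fun k n => (R n).1 _ (a4 k n)
  choose β hβ using fun k => (a1 k).2.2.2 ω
  choose τ t1 t2 using fun k n => ex_pt (B.sub (β k)) (c0 n) (m0 k) (a1 k).2.2 (hβ k)
  choose τ' t3 t4 using fun k n => ex_cm B (c0 n) (Rc.cop_mul (a4 k n) (d4 n)).1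
  simp only [map_sub, map_intCast, Complex.sub_im, Complex.intCast_im, sub_zero] at t1
  have j1 : ∀ k n, jf (τ k n) = io (h k n (jc j (p ^ n))) := fun k n => (t2 k n).trans (a5 k n).2.symm
  have j2 : ∀ k n, jf (τ' k n) = io (h k n (g n (jc j (p ^ n)))) := fun k n =>
    (t4 k n).trans ((R n).2.2.1 _ _ _ _ (a4 k n) (d4 n) (a5 k n) (d2 n)).2.symm
  have j3 : ∀ k n, jf (τ' k n) = io (g n (h k n (jc j (p ^ n)))) := fun k n =>
    (t4 k n).trans (mul_comm (D n) (A k) ▸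
      ((R n).2.2.1 _ _ _ _ (d4 n) (a4 k n) (d2 n) (a5 k n)).2.symm)
  have tc : Tendsto (fun n => p ^ n) U atTop :=
    (tendsto_pow_atTop_atTop_of_one_lt hp.one_lt).mono_left hU
  have κ0 : ∀ k, 0 < (JJ j ω).im / μ k := fun k => div_pos B.im (Nat.cast_pos.2 (m0 k))
  have hi : ∀ k, ∀ᶠ n in (U : Filter ℕ), 1 < (τ k n).im := fun k => by
    simp only [t1]
    exact ((tendsto_natCast_atTop_atTop.comp tc).const_mul_atTop (κ0 k)).eventually_gt_atTop 1
  obtain ⟨k, a, a0, hz⟩ := and U (JJ j ω) t n₀ B.im (by simpa using congrArg (JJ j) e) _ tc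
    (Ψ.map (mapRingHom (algebraMap ℚ ℂ)))
    ((Polynomial.map_ne_zero_iff (Polynomial.map_injective _ (algebraMap ℚ ℂ).injective)).2 Ψ0)
    τ τ' (fun k => ⟨_, κ0 k, .of_forall fun n => (t1 k n).ge⟩)
    (fun k => hΨ.mono fun n z => ⟨t3 k n, by
      let f : Qb →+* ℂ := (io : Qb →+* ℂ).comp (h k n : Qb →+* Qb)
      have := map_mapRingHom_evalEval f (Ψ.map (mapRingHom (algebraMap ℚ Qb)))
        (g n (jc j (p ^ n))) (jc j (p ^ n))
      rw [z, map_zero, Polynomial.map_map, mapRingHom_comp,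
        Subsingleton.elim (f.comp _) (algebraMap ℚ ℂ)] at this
      rw [j1, j2]
      exact this⟩)
    fun k k' ne => ((hi k).and (hi k')).mono fun n z w => by
      rw [j3, j3] at w
      have := im_eq jh z.1 z.2 (by rw [j1, j1, (g n).injective (P004K.io_inj w)])
      rw [t1, t1, mul_left_inj' (Nat.cast_ne_zero.2 (c0 n).ne'),
        div_eq_div_iff (Nat.cast_ne_zero.2 (m0 k).ne') (Nat.cast_ne_zero.2 (m0 k').ne'),
        mul_right_inj' B.im.ne', Nat.cast_inj] at this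
      have cp := a2 k k' ne
      rw [← this, Nat.coprime_self] at cp
      exact (a1 k').1.ne' cp
  obtain ⟨m, rfl⟩ : ∃ m', m = m' + 1 := Nat.exists_eq_succ_of_ne_zero fun z => by
    rw [z, Nat.coprime_zero_left] at mp
    exact hp.one_lt.ne' mp
  obtain ⟨d, E, e1, e2, e3, e4, e5⟩ := cma K j q up ω t n₀ B e p _ a U D (A k) hp mp a0 hU (a3 k)
    (fun n => ⟨d3 n, ((R n).2.2.2.2.1 _ _ (ar_pow h2 q (c0 n) (d4 n) (d2 n) m).1
      (ar_pow h2 q (c0 n) (d4 n) (d2 n) m).2).1 (hg n).2⟩)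
    (hz.mono fun n ⟨b, z, z1, z2⟩ => ⟨b, z, z1, z2.trans (t4 k n)⟩)
  exact ⟨d, E, e1, e2, e3, e4, e5.mono fun n z => ⟨(hg n).1, (d2 n).2.trans z⟩⟩

end Vale.Agent.P014Y.Nv
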