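import Vale.Agent.P014Y.Nv.St
import Vale.Agent.P004K.Lt

/-! # P014Y, block NV: the argument of André -/

set_option autoImplicit false
set_option linter.all false

open UpperHalfPlane Filter Polynomial Topology Asymptotics ModularForm EisensteinSeries Finset
open scoped Classical Modular MatrixGroups

noncomputable section

namespace Vale.Agent.P014Y.Nv

open Vale.Agent.P022 Vale.Agent.P004K P027H P027M.M Vale.Agent.P022.H218.L3

namespace Ad

theorem e4 : Tendsto (E₄ : ℍ → ℂ) atImInfty (𝓝 1) := by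
  obtain ⟨c, hc, h⟩ := ModularFormClass.exp_decay_sub_atImInfty' E₄
  have h0 : valueAtInfty (E₄ : ℍ → ℂ) = 1 := by
    rw [← qExpansion_coeff_zero one_pos (ModularFormClass.analyticAt_cuspFunction_zero E₄
      one_pos one_mem_strictPeriods_SL)
      (SlashInvariantFormClass.periodic_comp_ofComplex E₄ one_mem_strictPeriods_SL)]
    exact E_qExpansion_coeff_zero _ ⟨2, rfl⟩
  rw [h0] at h
  have h1 : Tendsto (fun τ : ℍ => Real.exp (-c * τ.im)) atImInfty (𝓝 0) := by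
    refine Real.tendsto_exp_atBot.comp ?_
    exact (tendsto_const_mul_atBot_of_neg (by linarith)).2 tendsto_comap
  simpa using (h.trans_tendsto h1).add_const 1

/-- the size of `j` near the cusp -/
theorem jb : ∃ T : ℝ, ∀ τ : ℍ, T ≤ τ.im → Real.exp (2 * Real.pi * τ.im) ≤ 2 * ‖jf τ‖ ∧
    ‖jf τ‖ ≤ 2 * Real.exp (2 * Real.pi * τ.im) := by
  have h := ((e4.pow 3).div tendsto_atImInfty_tprod_one_sub_eta_q_pow one_ne_zero).norm
  rw [one_pow, div_one, norm_one] at h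
  obtain ⟨T, hT⟩ := (atImInfty_mem _).1
    (h.eventually (Icc_mem_nhds (by norm_num : (1 / 2 : ℝ) < 1) (by norm_num : (1 : ℝ) < 2)))
  refine ⟨T, fun τ hτ => ?_⟩
  have k : _ ∧ _ := hT τ hτ
  have q : ‖Function.Periodic.qParam 1 τ‖ = (Real.exp (2 * Real.pi * τ.im))⁻¹ := by
    simp [Function.Periodic.qParam, Complex.norm_exp, ← Real.exp_neg]
  have e : ‖jf τ‖ = ‖E₄ τ ^ 3 / ∏' n, (1 - eta_q n τ) ^ 24‖ * Real.exp (2 * Real.pi * τ.im) := by
    rw [jf, discriminant_eq_q_prod, norm_div, norm_div, norm_mul, q]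
    field_simp
  have := Real.exp_pos (2 * Real.pi * τ.im)
  rw [e]
  simp only [Pi.div_apply] at k
  constructor <;> nlinarith [k.1, k.2]

/-- the truncated strip -/
def Kc (T : ℝ) : Set ℂ := Set.Icc (-(1 / 2) : ℝ) (1 / 2) ×ℂ Set.Icc (1 / 2 : ℝ) T

theorem kc (T : ℝ) : IsCompact (Kc T) := isCompact_Icc.reProdIm isCompact_Icc

theorem kc_sub (T : ℝ) : Kc T ⊆ {z | 0 < z.im} := fun z hz =>
  lt_of_lt_of_le (by norm_num) hz.2.1

theorem half {σ : ℍ} (h : σ ∈ 𝒟) : 1 / 2 ≤ σ.im := by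
  nlinarith [ModularGroup.three_le_four_mul_im_sq_of_mem_fd h, σ.im_pos]

theorem mem_kc {σ : ℍ} {T : ℝ} (h : σ ∈ 𝒟) (hT : σ.im ≤ T) : (σ : ℂ) ∈ Kc T :=
  ⟨abs_le.1 h.2, half h, hT⟩

theorem an : AnalyticOnNhd ℂ (jf ∘ ofComplex) {z | 0 < z.im} :=
  (UpperHalfPlane.mdifferentiable_iff.1 jf_mem).analyticOnNhd isOpen_upperHalfPlaneSet

theorem up : ∃ M : ℝ, ∀ σ ∈ 𝒟, ‖jf σ‖ ≤ M * Real.exp (2 * Real.pi * σ.im) := by
  obtain ⟨T, hT⟩ := jb
  obtain ⟨M, hM⟩ := (kc T).exists_bound_of_continuousOn (an.continuousOn.mono (kc_sub T))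
  refine ⟨max M 2, fun σ hσ => ?_⟩
  have p := Real.exp_pos (2 * Real.pi * σ.im)
  rcases le_total T σ.im with h | h
  · exact (hT σ h).2.trans (mul_le_mul_of_nonneg_right (le_max_right _ _) p.le)
  · have := hM _ (mem_kc hσ h)
    rw [Function.comp_apply, ofComplex_apply] at this
    refine (this.trans (le_max_left M 2)).trans (le_mul_of_one_le_right (by positivity) ?_)
    exact Real.one_le_exp (by have := σ.im_pos; positivity)

theorem low {p : ℂ[X]} (hp : p ≠ 0) :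
    ∃ T ε : ℝ, 0 < ε ∧ ∀ σ : ℍ, T ≤ σ.im → ε ≤ ‖p.eval (jf σ)‖ := by
  rcases le_or_gt p.degree 0 with h | h
  · rw [eq_C_of_degree_le_zero h] at hp ⊢
    exact ⟨0, ‖p.coeff 0‖, norm_pos_iff.2 (C_ne_zero.1 hp), fun σ _ => by rw [eval_C]⟩
  · obtain ⟨T, hT⟩ := jb
    have a : Tendsto (fun τ : ℍ => Real.exp (2 * Real.pi * τ.im) / 2) atImInfty atTop :=
      (Real.tendsto_exp_atTop.comp
        (Tendsto.const_mul_atTop (by positivity) tendsto_comap)).atTop_div_const two_pos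
    have b : Tendsto (fun τ : ℍ => ‖jf τ‖) atImInfty atTop := tendsto_atTop_mono' _
      ((atImInfty_mem _).2 ⟨T, fun τ hτ => (div_le_iff₀' two_pos).2 (hT τ hτ).1⟩) a
    obtain ⟨T', h'⟩ := (atImInfty_mem _).1 ((p.tendsto_norm_atTop h b).eventually_ge_atTop 1)
    exact ⟨T', 1, one_pos, h'⟩

/-- reduction to the fundamental domain -/
theorem red (x : ℂ) (τ : ℍ) : ∃ (σ : ℍ) (a : ℕ) (b : ℤ), σ ∈ 𝒟 ∧ jf σ = jf τ ∧
    (0 < x.im → Cm x τ → 0 < a ∧ a * (σ : ℂ) = x - b) := by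
  obtain ⟨γ, hγ⟩ := ModularGroup.exists_smul_mem_fd τ
  have j : jf (γ • τ) = jf τ := by
    simpa using (((cj0_one one_pos).2 ⟨γ, mem_G0.2 (one_dvd _), rfl⟩ : Cj0 1 1 (γ • τ) τ).jf).symm
  by_cases h : 0 < x.im ∧ Cm x τ
  · obtain ⟨m, n, e⟩ := mem_lat.1 (((hom_smul γ τ).2 x).2
      (mul_comm x _ ▸ h.2 _ (lin_lat τ (γ 1 0) (γ 1 1))))
    have m0 : 0 < m := by
      have := congrArg Complex.im e
      simp only [Complex.add_im, Complex.mul_im, Complex.intCast_re, Complex.intCast_im, coe_im,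
        zero_mul, add_zero] at this
      exact_mod_cast (mul_pos_iff_of_pos_right (γ • τ).im_pos).1 (this ▸ h.1)
    obtain ⟨a, rfl⟩ := Int.eq_ofNat_of_zero_le m0.le
    exact ⟨_, a, n, hγ, j, fun _ _ => ⟨by exact_mod_cast m0, by simpa using eq_sub_of_add_eq e⟩⟩
  · exact ⟨_, 0, 0, hγ, j, fun h1 h2 => absurd ⟨h1, h2⟩ h⟩

/-- the inequality of Liouville -/
theorem liou {ω : ℂ} {t n₀ : ℤ} (h0 : 0 < ω.im) (h : ω ^ 2 = t * ω - n₀) (u v : ℤ)
    (hw : (u : ℂ) + v * ω ≠ 0) : 1 ≤ ‖(u : ℂ) + v * ω‖ := by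
  have a := congrArg Complex.re h
  have b := congrArg Complex.im h
  simp [sq] at a b
  have r : 2 * ω.re = t := mul_right_cancel₀ h0.ne' (by linarith)
  have e : ‖(u : ℂ) + v * ω‖ ^ 2 = ((u ^ 2 + t * u * v + n₀ * v ^ 2 : ℤ) : ℝ) := by
    rw [Complex.sq_norm, Complex.normSq_apply]
    simp only [Complex.add_re, Complex.add_im, Complex.mul_re, Complex.mul_im, Complex.intCast_re,
      Complex.intCast_im]
    push_cast
    linear_combination (u * v + v ^ 2 * ω.re : ℝ) * r - (v : ℝ) ^ 2 * a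
  have p : (0 : ℝ) < ((u ^ 2 + t * u * v + n₀ * v ^ 2 : ℤ) : ℝ) := e ▸ pow_pos (norm_pos_iff.2 hw) 2
  have q : (1 : ℝ) ≤ ((u ^ 2 + t * u * v + n₀ * v ^ 2 : ℤ) : ℝ) := by
    exact_mod_cast Int.add_one_le_of_lt (by exact_mod_cast p : (0 : ℤ) < _)
  exact (one_le_sq_iff₀ (norm_nonneg _)).1 (e ▸ q)

theorem lead (Ψ : ℂ[X][X]) {x y : ℂ} (h : Ψ.evalEval x y = 0) (hy : 1 ≤ ‖y‖) :
    ‖Ψ.leadingCoeff.eval x‖ * ‖y‖ ≤ ∑ i ∈ range Ψ.natDegree, ‖(Ψ.coeff i).eval x‖ := by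
  rw [evalEval, eval_eq_sum_range (p := Ψ), eval_finsetSum, sum_range_succ] at h
  simp only [eval_mul, eval_pow, eval_C] at h
  have p : 0 < ‖y‖ ^ Ψ.natDegree := by positivity
  refine le_of_mul_le_mul_right ?_ p
  rw [mul_right_comm, ← norm_pow, ← norm_mul, leadingCoeff, eq_neg_of_add_eq_zero_right h, norm_neg,
    sum_mul]
  refine (mul_le_mul_of_nonneg_right (norm_sum_le _ _) (norm_nonneg y)).trans ?_
  rw [sum_mul]
  refine sum_le_sum fun i hi => ?_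
  rw [norm_mul, norm_pow, norm_pow, mul_assoc, ← pow_succ]
  exact mul_le_mul_of_nonneg_left (pow_le_pow_right₀ hy (mem_range.1 hi)) (norm_nonneg _)

variable {l : Filter ℕ} {c : ℕ → ℕ} {x y : ℕ → ℂ}

/-- slower than all exponentials -/
def Sx (l : Filter ℕ) (c : ℕ → ℕ) (x : ℕ → ℂ) : Prop :=
  ∀ ε : ℝ, 0 < ε → x =O[l] fun n => Real.exp (ε * c n)

theorem Sx.const (a : ℂ) : Sx l c fun _ => a := fun ε h => .of_bound ‖a‖ <| .of_forall fun n => by
  rw [Real.norm_of_nonneg (Real.exp_pos _).le]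
  exact le_mul_of_one_le_right (norm_nonneg _) (Real.one_le_exp (by positivity))

theorem Sx.mul (hx : Sx l c x) (hy : Sx l c y) : Sx l c fun n => x n * y n := fun ε h =>
  ((hx _ (half_pos h)).mul (hy _ (half_pos h))).congr_right fun n => by
    rw [← Real.exp_add]; congr 1; ring

theorem Sx.eval (hx : Sx l c x) (q : ℂ[X]) : Sx l c fun n => q.eval (x n) := by
  induction q using Polynomial.induction_on with
  | C a => simpa using Sx.const a
  | add p q hp hq => exact fun ε h => by simpa using (hp ε h).add (hq ε h)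
  | monomial n a h => simpa [pow_succ, ← mul_assoc] using h.mul hx

/-- the top coefficient is very small -/
theorem dec (hc : Tendsto c l atTop) (Ψ : ℂ[X][X]) (hx : Sx l c x) {τ : ℕ → ℍ} {κ : ℝ} (k0 : 0 < κ)
    (h1 : ∀ᶠ n in l, κ * c n ≤ (τ n).im) (h2 : ∀ᶠ n in l, Ψ.evalEval (x n) (jf (τ n)) = 0) (m : ℕ) :
    Tendsto (fun n => (c n : ℝ) ^ m * ‖Ψ.leadingCoeff.eval (x n)‖) l (𝓝 0) := by
  obtain ⟨T, hT⟩ := jb
  have hc' : Tendsto (fun n => (c n : ℝ)) l atTop := tendsto_natCast_atTop_atTop.comp hc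
  have k1 : 0 < Real.pi * κ := by positivity
  have S : (fun n => ∑ i ∈ range Ψ.natDegree, ‖(Ψ.coeff i).eval (x n)‖) =O[l]
      fun n => Real.exp (Real.pi * κ * c n) :=
    IsBigO.fun_sum fun i _ => (hx.eval _ _ k1).norm_left
  have B : (fun n => ‖Ψ.leadingCoeff.eval (x n)‖) =O[l] fun n =>
      Real.exp (-(2 * (Real.pi * κ * c n))) * ∑ i ∈ range Ψ.natDegree, ‖(Ψ.coeff i).eval (x n)‖ := by
    refine .of_bound 2 ?_
    filter_upwards [h1, h2, (hc'.const_mul_atTop k0).eventually_ge_atTop (max T 1)] with n a b d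
    have t := (hT _ (((le_max_left _ _).trans d).trans a)).1
    have i : 1 ≤ (τ n).im := ((le_max_right _ _).trans d).trans a
    have u : Real.exp (2 * (Real.pi * κ * c n)) ≤ Real.exp (2 * Real.pi * (τ n).im) :=
      Real.exp_le_exp.2 (by nlinarith [Real.pi_pos])
    have w := Real.add_one_le_exp (2 * Real.pi * (τ n).im)
    have := lead Ψ b (by nlinarith [Real.pi_gt_three])
    have p := Real.exp_pos (2 * (Real.pi * κ * c n))
    rw [norm_norm, Real.norm_of_nonneg (by positivity), Real.exp_neg, ← mul_assoc, mul_right_comm,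
      ← div_eq_mul_inv, le_div_iff₀ p]
    nlinarith [norm_nonneg (Ψ.leadingCoeff.eval (x n))]
  have D := (isBigO_refl (fun n => (c n : ℝ) ^ m) l).mul (B.trans ((isBigO_refl _ l).mul S))
  refine D.trans_tendsto (((tendsto_rpow_mul_exp_neg_mul_atTop_nhds_zero m _ k1).comp hc').congr
    fun n => ?_)
  rw [Function.comp_apply, Real.rpow_natCast, ← Real.exp_add]
  congr 2; ring

theorem loc {G : ℂ → ℂ} {s : ℂ} (h : AnalyticAt ℂ G s) (h0 : ¬ ∀ᶠ z in 𝓝 s, G z = 0) {z : ℕ → ℂ}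
    (hz : Tendsto z l (𝓝 s)) (hd : ∀ m : ℕ, Tendsto (fun n => (c n : ℝ) ^ m * ‖G (z n)‖) l (𝓝 0))
    {B : ℝ} (hB : 0 ≤ B) : ∀ᶠ n in l, B * c n ^ 2 * ‖z n - s‖ < 1 := by
  obtain ⟨e, g, g1, g0, k⟩ := h.exists_eventuallyEq_pow_smul_nonzero_iff.2 h0
  have p : 0 < ‖g s‖ / 2 := half_pos (norm_pos_iff.2 g0)
  have k1 := g1.continuousAt.norm.eventually (lt_mem_nhds (half_lt_self (norm_pos_iff.2 g0)))
  have k2 := ((hd (2 * e)).const_mul (B ^ e)).eventually (gt_mem_nhds (mul_zero (B ^ e) ▸ p))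
  filter_upwards [hz.eventually k, hz.eventually k1, k2] with n a b d
  by_contra f
  have f' := one_le_pow₀ (n := e) (not_lt.1 f)
  rw [a, smul_eq_mul, norm_mul, norm_pow, pow_mul, ← mul_assoc, ← mul_assoc, ← mul_pow,
    ← mul_pow] at d
  nlinarith

end Ad

open Ad in
theorem and_ : AND := by
  intro U ω t n₀ h0 hω c hc Ψ hΨ τ τ' H1 H2 H3
  choose σ a b fd hj hr using fun k n => red (c n * ω) (τ' k n)
  have R : ∀ k, ∀ᶠ n in (U : Filter ℕ), 0 < a k n ∧ a k n * (σ k n : ℂ) = c n * ω - b k n := fun k => by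
    filter_upwards [H2 k, hc.eventually_gt_atTop 0] with n h p
    exact hr k n (by simpa using mul_pos (Nat.cast_pos.2 p) h0) h.1
  have I : ∀ k, ∀ᶠ n in (U : Filter ℕ), a k n * (σ k n).im = c n * ω.im := fun k =>
    (R k).mono fun n h => by simpa using congrArg Complex.im h.2
  by_contra hn
  have A : ∀ k, Tendsto (a k) U atTop := fun k => by
    rcases (U.map (a k)).le_cofinite_or_eq_pure with h | ⟨a₀, h⟩
    · rwa [Nat.cofinite_eq_atTop] at h
    have e : ∀ᶠ n in (U : Filter ℕ), a k n = a₀ := by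
      have : {a₀} ∈ U.map (a k) := h ▸ Ultrafilter.mem_pure.2 rfl
      exact this
    obtain ⟨n, n1, n2⟩ := (e.and (R k)).exists
    exact (hn ⟨k, a₀, n1 ▸ n2.1, (e.and (R k)).mono fun n h =>
      ⟨b k n, σ k n, h.1 ▸ h.2.2, hj k n⟩⟩).elim
  obtain ⟨M, hM⟩ := up
  have S : ∀ k, Sx U c fun n => jf (σ k n) := fun k ε e0 => by
    refine .of_bound |M| ?_
    filter_upwards [I k, (tendsto_natCast_atTop_atTop.comp (A k)).eventually_ge_atTop
      (2 * Real.pi * ω.im / ε), R k] with n h1 h2 h3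
    rw [Real.norm_of_nonneg (Real.exp_pos _).le]
    refine (hM _ (fd k n)).trans (mul_le_mul (le_abs_self _) (Real.exp_le_exp.2 ?_)
      (Real.exp_pos _).le (abs_nonneg _))
    have p : (0 : ℝ) < a k n := by exact_mod_cast h3.1
    rw [Function.comp_apply, div_le_iff₀ e0] at h2
    refine le_of_mul_le_mul_left ?_ p
    rw [mul_left_comm, h1]
    nlinarith [Nat.cast_nonneg (α := ℝ) (c n)]
  set G : ℂ → ℂ := fun z => Ψ.leadingCoeff.eval ((jf ∘ ofComplex) z)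
  have gσ : ∀ z : ℍ, G z = Ψ.leadingCoeff.eval (jf z) := fun z => by simp [G]
  have ga : AnalyticOnNhd ℂ G {z | 0 < z.im} := fun z hz =>
    (Ψ.leadingCoeff.differentiable.analyticAt _).comp (an z hz)
  have D : ∀ k (m : ℕ), Tendsto (fun n => (c n : ℝ) ^ m * ‖G (σ k n)‖) U (𝓝 0) := fun k m => by
    obtain ⟨κ, k0, k1⟩ := H1 k
    simpa only [gσ] using dec hc Ψ (S k) k0 k1 ((H2 k).mono fun n h => by rw [hj]; exact h.2) m
  obtain ⟨T, ε, e0, hT⟩ := low (leadingCoeff_ne_zero.2 hΨ)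
  obtain ⟨z₀, z0⟩ : ∃ z : ℍ, G z ≠ 0 := ⟨⟨⟨0, max T 1⟩, lt_max_of_lt_right one_pos⟩, by
    rw [gσ, ← norm_pos_iff]; exact e0.trans_le (hT _ (le_max_left _ _))⟩
  have cv : IsConnected {z : ℂ | 0 < z.im} := (convex_halfSpace_im_gt 0).isConnected ⟨_, z₀.2⟩
  have L : ∀ k, ∃ s ∈ Kc T \ G ⁻¹' {0}ᶜ, Tendsto (fun n => (σ k n : ℂ)) U (𝓝 s) := fun k => by
    have d : Tendsto (fun n => ‖G (σ k n)‖) U (𝓝 0) := by simpa using D k 0
    obtain ⟨s, s1, s2⟩ := (kc T).ultrafilter_le_nhds (U.map fun n => (σ k n : ℂ)) (by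
      rw [le_principal_iff]
      show ∀ᶠ n in (U : Filter ℕ), (σ k n : ℂ) ∈ Kc T
      filter_upwards [d.eventually (gt_mem_nhds e0)] with n h
      exact mem_kc (fd k n) (not_lt.1 fun f => (hT _ f.le).not_gt (gσ _ ▸ h)))
    refine ⟨s, ⟨s1, ?_⟩, s2⟩
    simpa using tendsto_nhds_unique ((ga s (kc_sub T s1)).continuousAt.norm.tendsto.comp s2) d
  choose s s1 s2 using L
  obtain ⟨k, -, k', -, ne, e⟩ := Set.infinite_univ.exists_ne_map_eq_of_mapsTo (fun k _ => s1 k)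
    ((kc T).finite_sdiff_of_mem_codiscreteWithin (codiscreteWithin_mono (kc_sub T)
      (ga.preimage_zero_mem_codiscreteWithin z0 z₀.2 cv)))
  have n0 : ∀ k, ¬ ∀ᶠ z in 𝓝 (s k), G z = 0 := fun k h => z0
    (ga.eqOn_zero_of_preconnected_of_eventuallyEq_zero cv.isPreconnected (kc_sub T (s1 k).1) h z₀.2)
  have F := fun k => loc (ga _ (kc_sub T (s1 k).1)) (n0 k) (s2 k) (D k)
    (B := 8 * ω.im ^ 2) (by positivity)
  obtain ⟨n, ⟨f1, f2⟩, ⟨r1, r2⟩, ⟨i1, i2⟩, j⟩ := ((((F k).and (F k')).and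
    (((R k).and (R k')).and (((I k).and (I k')).and (H3 k k' ne))))).exists
  have w : (((a k n * b k' n - a k' n * b k n : ℤ) : ℂ) + ((a k' n - a k n) * c n : ℤ) * ω) =
      a k n * a k' n * ((σ k n - s k) - (σ k' n - s k')) := by
    push_cast
    linear_combination -(a k' n : ℂ) * r1.2 + (a k n : ℂ) * r2.2 + (a k n * a k' n : ℂ) * e
  have p1 : (0 : ℝ) < a k n := by exact_mod_cast r1.1
  have p2 : (0 : ℝ) < a k' n := by exact_mod_cast r2.1
  have := liou h0 hω _ _ (by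
    rw [w, e, sub_sub_sub_cancel_right]
    refine mul_ne_zero (mul_ne_zero (Nat.cast_ne_zero.2 r1.1.ne') (Nat.cast_ne_zero.2 r2.1.ne'))
      (sub_ne_zero.2 fun f => j ?_)
    rw [← hj, ← hj, UpperHalfPlane.ext f])
  rw [w, norm_mul, norm_mul, Complex.norm_natCast, Complex.norm_natCast] at this
  have b1 : (a k n : ℝ) ≤ 2 * (c n * ω.im) := by nlinarith [half (fd k n)]
  have b2 : (a k' n : ℝ) ≤ 2 * (c n * ω.im) := by nlinarith [half (fd k' n)]
  have b3 := mul_le_mul (mul_le_mul b1 b2 p2.le (p1.le.trans b1))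
    (norm_sub_le ((σ k n : ℂ) - s k) (σ k' n - s k')) (norm_nonneg _) (by positivity)
  nlinarith

end Vale.Agent.P014Y.Nv
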