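import Vale.Agent.P014Y.Nv.St
import Vale.Agent.P004N.H461.Al

/-! # P014Y, block NV: independence near the cusp `0` -/

set_option autoImplicit false

open UpperHalfPlane hiding I
open Filter Topology Complex
open scoped Real

noncomputable section

namespace Vale.Agent.P014Y.Nv

open P004N (QE Pr)

namespace Asy

variable {G : ℍ → ℂ} {c : ℕ → ℂ}

theorem nrm (n : ℕ) (w : ℂ) : ‖cexp (2 * π * I * n * w)‖ = Real.exp (-(2 * π * n * w.im)) := by
  rw [norm_exp]
  congr 1
  simp

theorem sm (h : QE G c) {y : ℝ} (hy : 0 < y) :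
    Summable fun n => ‖c n‖ * Real.exp (-(2 * π * n * y)) := by
  have := (h ⟨y * I, by simpa using hy⟩).summable.norm
  refine this.congr fun n => ?_
  rw [norm_mul, nrm]
  simp

theorem der (h : QE G c) (h0 : c 0 = 0) (τ : ℍ) :
    HasDerivAt (Pr c ∘ ofComplex) (2 * π * I * G τ) τ := by
  have hy : 0 < τ.im / 2 := half_pos τ.im_pos
  have ho : IsOpen {w : ℂ | τ.im / 2 < w.im} := isOpen_lt continuous_const continuous_im
  have hτ : (τ : ℂ) ∈ {w : ℂ | τ.im / 2 < w.im} := by
    change τ.im / 2 < τ.im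
    linarith [τ.im_pos]
  have hb : ∀ (n : ℕ) (w : ℂ), w ∈ {w : ℂ | τ.im / 2 < w.im} →
      ‖c n * cexp (2 * π * I * n * w)‖ ≤ ‖c n‖ * Real.exp (-(2 * π * n * (τ.im / 2))) := by
    intro n w hw
    rw [norm_mul, nrm]
    have : τ.im / 2 ≤ w.im := le_of_lt hw
    gcongr
  have key := hasDerivAt_tsum_of_isPreconnected ((sm h hy).mul_left ‖(2 * π * I : ℂ)‖) ho
    (convex_halfSpace_im_gt _).isPreconnected
    (g := fun (n : ℕ) (w : ℂ) => c n / n * cexp (2 * π * I * n * w))
    (g' := fun (n : ℕ) (w : ℂ) => 2 * π * I * (c n * cexp (2 * π * I * n * w)))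
    (fun n w _ => by
      have h1 := (((hasDerivAt_id w).const_mul (2 * π * I * n : ℂ)).cexp).const_mul (c n / n)
      simp only [id, mul_one] at h1
      refine h1.congr_deriv ?_
      rcases eq_or_ne n 0 with rfl | hn
      · simp [h0]
      · have : (n : ℂ) ≠ 0 := by exact_mod_cast hn
        field_simp)
    (fun n w hw => by rw [norm_mul]; exact mul_le_mul_of_nonneg_left (hb n w hw) (norm_nonneg _))
    hτ (by
      refine Summable.of_norm_bounded (sm h hy) fun n => le_trans ?_ (hb n τ hτ)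
      rw [norm_mul, norm_mul, norm_div]
      refine mul_le_mul_of_nonneg_right ?_ (norm_nonneg _)
      rcases eq_or_ne n 0 with rfl | hn
      · simp
      · exact div_le_self (norm_nonneg _) (by
          rw [Complex.norm_natCast]; exact_mod_cast Nat.one_le_iff_ne_zero.2 hn)) hτ
  rw [tsum_mul_left, (h τ).tsum_eq] at key
  refine key.congr_of_eventuallyEq ?_
  filter_upwards [ho.mem_nhds hτ] with w hw
  have h2 : 0 < w.im := hy.trans hw
  simp only [Function.comp_apply, Pr, ofComplex_apply_of_im_pos h2, coe_mk]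

theorem lim (h : QE G c) (h0 : c 0 = 0) (h1 : c 1 = 1) {α : Type} {l : Filter α} {s : α → ℍ}
    (hs : Tendsto (fun n => (s n).im) l atTop) :
    Tendsto (fun n => G (s n) / cexp (2 * π * I * s n)) l (𝓝 1) := by
  set B : ℝ := ∑' n : ℕ, ‖c n‖ * Real.exp (-(2 * π * n * 1)) with hB
  have key : ∀ z : ℍ, 1 ≤ z.im → ‖G z / cexp (2 * π * I * z) - 1‖ ≤
      B * Real.exp (4 * π) * Real.exp (-(2 * π * z.im)) := by
    intro z hz
    have e0 := Complex.exp_ne_zero (2 * π * I * z)
    have h2 := ((h z).div_const (cexp (2 * π * I * z))).sub (hasSum_ite_eq 1 (1 : ℂ))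
    rw [← h2.tsum_eq, mul_assoc B]
    refine tsum_of_norm_bounded ((sm h one_pos).hasSum.mul_right _) fun n => ?_
    rcases n with _ | _ | n
    · simp [h0]
    · simp only [zero_add, h1, one_mul, Nat.cast_one, mul_one, div_self e0, if_true, sub_self,
        norm_zero]
      positivity
    · have h3 := nrm 1 z
      rw [Nat.cast_one, mul_one] at h3
      rw [if_neg (by omega), sub_zero, norm_div, norm_mul, nrm, h3, mul_div_assoc, mul_assoc ‖c _‖,
        ← Real.exp_sub, ← Real.exp_add, ← Real.exp_add]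
      refine mul_le_mul_of_nonneg_left (Real.exp_le_exp.2 ?_) (norm_nonneg _)
      have h4 : 0 ≤ π * n * (z.im - 1) := by have := Real.pi_pos; have := sub_nonneg.2 hz; positivity
      simp only [coe_im]
      push_cast
      nlinarith
  rw [← tendsto_sub_nhds_zero_iff]
  refine squeeze_zero_norm' ((hs.eventually_ge_atTop 1).mono fun n hn => key _ hn) ?_
  have h5 : Tendsto (fun n => Real.exp (-(2 * π * (s n).im))) l (𝓝 0) :=
    Real.tendsto_exp_atBot.comp (tendsto_neg_atTop_atBot.comp
      (hs.const_mul_atTop Real.two_pi_pos))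
  simpa using h5.const_mul (B * Real.exp (4 * π))

end Asy

open Asy in
theorem asy : ASY := by
  intro N G a A B w Λ F x y hG hP U s c τ τ' hτ hlim hsum
  classical
  have hq := hG.qe
  have h0 : (fun n => (a n : ℂ)) 0 = 0 := by simp [hG.zero]
  have h1 : (fun n => (a n : ℂ)) 1 = 1 := by simp [hG.one]
  have hN : (0 : ℝ) < N := by exact_mod_cast hG.pos
  have hw : (w : ℂ) ≠ 0 := by exact_mod_cast hP.wpos.ne'
  have hd : ∀ z, dd F z = 2 * π * I * G z / w := fun z => by
    have : F ∘ ofComplex = fun v => (Pr (fun n => (a n : ℂ)) ∘ ofComplex) v / w :=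
      funext fun v => hP.I_eq _
    rw [dd, this]
    exact ((der hq h0 z).div_const _).deriv
  obtain ⟨ε, hε, hA⟩ := P004N.H461.pfAL N G a hG N 1 (mul_one N) (Nat.coprime_one_right N)
  have hε0 : (ε : ℂ) ≠ 0 := by rcases hε with h | h <;> simp [h]
  let σ : ℕ → ℂ := fun n => -1 / (τ n : ℂ)
  have hσ : ∀ n, 0 < (σ n).im := fun n => by
    have h2 := (τ n).im_pos
    have h3 := normSq_pos.2 (τ n).ne_zero
    simp only [σ, neg_div, one_div, neg_im, inv_im, coe_im, neg_neg]
    positivity
  let r : ℕ → ℝ := fun m => (N * max m 1 : ℝ)⁻¹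
  have hr : ∀ m, 0 < r m := fun m => by positivity
  let z : ℕ → ℕ → ℍ := fun m n => ⟨r m * σ n, by simpa using mul_pos (hr m) (hσ n)⟩
  have hz : ∀ m n, (z m n : ℂ) = r m * σ n := fun _ _ => rfl
  have key : ∀ m ∈ s, ∀ n, dd F (τ' m n) =
      2 * π * I / w * ε * N * σ n ^ 2 * ((r m : ℂ) ^ 2 * G (z m n)) := by
    intro m hm n
    obtain ⟨m0, hm'⟩ := hτ m hm
    have h2 : (r m : ℂ) = ((N : ℂ) * m)⁻¹ := by
      simp only [r]
      rw [max_eq_left (by exact_mod_cast m0)]
      push_cast
      rfl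
    have h3 : (N : ℂ) ≠ 0 := by exact_mod_cast hG.pos.ne'
    have h4 : (m : ℂ) ≠ 0 := by exact_mod_cast m0.ne'
    have h5 := (τ n).ne_zero
    rw [hd, hA 0 (-1) 1 0 (by ring) (z m n) (τ' m n) (by
      rw [hm', hz, h2]
      simp only [σ]
      push_cast
      field_simp
      ring), hz]
    push_cast
    field_simp
    ring
  by_contra! hne
  obtain ⟨m₀, hm₀, hc₀⟩ := hne
  obtain ⟨M, hM, hmax⟩ := (s.filter fun m => c m ≠ 0).exists_max_image id
    ⟨m₀, Finset.mem_filter.2 ⟨hm₀, hc₀⟩⟩
  obtain ⟨hMs, hMc⟩ := Finset.mem_filter.1 hM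
  have him : ∀ t : ℝ, 0 < t → Tendsto (fun n => t * (σ n).im) U atTop := fun t ht =>
    hlim.const_mul_atTop ht
  have h6 : ∀ m ∈ s, Tendsto (fun n => c m * ((r m : ℂ) ^ 2 * G (z m n)) /
      cexp (2 * π * I * z M n)) U (𝓝 (if m = M then c M * (r M : ℂ) ^ 2 else 0)) := by
    intro m hm
    have h7 := lim hq h0 h1 (s := z m) (l := U) (by simpa [z] using him _ (hr m))
    split_ifs with h
    · subst h
      have h8 := h7.const_mul (c m * (r m : ℂ) ^ 2)
      rw [mul_one] at h8
      exact h8.congr fun n => by ring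
    by_cases hc : c m = 0
    · simp [hc]
    have h8 : m < M := lt_of_le_of_ne (hmax m (Finset.mem_filter.2 ⟨hm, hc⟩)) h
    have h9 : 0 < r m - r M := by
      have m0 : 1 ≤ m := (hτ m hm).1
      have m1 : (0 : ℝ) < m := by exact_mod_cast m0
      simp only [r]
      rw [max_eq_left m0, max_eq_left (m0.trans h8.le), sub_pos]
      gcongr
    have h10 : Tendsto (fun n => cexp (2 * π * I * z m n) / cexp (2 * π * I * z M n)) U (𝓝 0) := by
      rw [tendsto_zero_iff_norm_tendsto_zero]
      refine (Real.tendsto_exp_atBot.comp (tendsto_neg_atTop_atBot.comp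
        (him _ (mul_pos Real.two_pi_pos h9)))).congr fun n => ?_
      rw [← Complex.exp_sub, norm_exp, hz, hz]
      simp only [Function.comp_apply]
      congr 1
      simp
      ring
    have h11 := (h7.mul h10).const_mul (c m * (r m : ℂ) ^ 2)
    rw [mul_zero, mul_zero] at h11
    refine h11.congr fun n => ?_
    have := Complex.exp_ne_zero (2 * π * I * z m n)
    field_simp
  have h12 := tendsto_finsetSum s h6
  rw [Finset.sum_ite_eq' s M, if_pos hMs] at h12
  have h13 : (fun n => ∑ m ∈ s, c m * ((r m : ℂ) ^ 2 * G (z m n)) / cexp (2 * π * I * z M n))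
      =ᶠ[U] fun _ => 0 := by
    filter_upwards [hsum] with n hn
    rw [Finset.sum_congr rfl fun m hm => by rw [key m hm n, mul_left_comm], ← Finset.mul_sum] at hn
    have h14 : (σ n) ≠ 0 := fun e => by simpa [e] using hσ n
    have h15 : (N : ℂ) ≠ 0 := by exact_mod_cast hG.pos.ne'
    have h16 : (2 * π * I : ℂ) ≠ 0 := two_pi_I_ne_zero
    rw [← Finset.sum_div, (mul_eq_zero.1 hn).resolve_left (by positivity), zero_div]
  have h17 := tendsto_nhds_unique (h12.congr' h13) tendsto_const_nhds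
  have h18 : (r M : ℂ) ≠ 0 := by exact_mod_cast (hr M).ne'
  exact mul_ne_zero hMc (pow_ne_zero 2 h18) h17

end Vale.Agent.P014Y.Nv
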