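import Vale.Agent.P014Y.Nv.St
import Vale.Agent.P004K.Rc.Cyc
import Vale.Agent.P004K.Gm.Jh
import Vale.Agent.P004K.Lt

/-! # P014Y, block NV: row CMA -/

set_option autoImplicit false
set_option linter.all false

open UpperHalfPlane NumberField Filter
open scoped Classical

noncomputable section

namespace Vale.Agent.P014Y.Nv

open Vale.Agent.P022 Vale.Agent.P004K P027H P027M.M Vale.Agent.P022.H218.L3
open Vale.Agent.P004K.Rc
open Ideal (span)

namespace Cma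

variable {O : Type} [CommRing O] {J : O →+* ℂ} {ω : O} {s : O →+* O} {c p : ℕ}
  {A B C E : Ideal O}

theorem cop_pow (h : Cop p C) (n : ℕ) : Cop (p ^ n) C := ⟨h.1, by
  rw [Nat.cast_pow, ← Ideal.span_singleton_pow]
  exact Ideal.sup_pow_eq_top h.2⟩

theorem cop_l (h : Cop c (A * B)) : Cop c A := cop_mono h Ideal.mul_le_left

theorem cop_r (h : Cop c (A * B)) : Cop c B := cop_mono h Ideal.mul_le_right

theorem sdv [IsDedekindDomain O] {x y : O} : span {x} ∣ span {y} ↔ x ∣ y :=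
  Ideal.dvd_iff_le.trans Ideal.span_singleton_le_span_singleton

theorem rc_le {x : O} {a b : ℕ} (h : Rc (p ^ b) x) (e : a ≤ b) : Rc (p ^ a) x := by
  obtain ⟨d, rfl⟩ := Nat.exists_eq_add_of_le e
  obtain ⟨k, y, rfl⟩ := h
  exact ⟨k, p ^ d * y, by push_cast; ring⟩

variable (q : Qd J ω s)
include q

theorem cancel {x y : O} (h : Rc c (x * y)) (hy : Rc c y) (cp : Cop c (span {y})) : Rc c x := by
  obtain ⟨k, b, rfl⟩ := hy
  have k1 := q.cop_int cp
  obtain ⟨u, v, rfl⟩ := q.sp x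
  obtain ⟨l, d, e⟩ := h
  have : Rc c ((u * k : ℤ) + (v * k : ℤ) * ω : O) :=
    ⟨l, d - (u + v * ω) * b, by push_cast; linear_combination e⟩
  rw [q.rc_iff] at this ⊢
  exact k1.symm.dvd_of_dvd_mul_right this

theorem root (hp : p.Prime) {m n : ℕ} (hm : m.Coprime p) {x : O} (h1 : Rc p x)
    (cp : Cop p (span {x})) (h : Rc (p ^ n) (x ^ m)) : Rc (p ^ n) x := by
  obtain ⟨u, v, rfl⟩ := q.sp x
  obtain ⟨w, rfl⟩ := q.rc_iff.1 h1
  have k1 : IsCoprime u (p : ℤ) := q.cop_int (b := w * ω) (by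
    rwa [show (u + p * (w * ω) : O) = u + ((p * w : ℤ) : O) * ω by push_cast; ring])
  obtain ⟨y, e⟩ := sq_dvd_add_pow_sub_sub (((p * w : ℤ) : O) * ω) u m
  obtain ⟨a, b, e2⟩ := q.sp (ω ^ 2 * y)
  rw [show (u + ((p * w : ℤ) : O) * ω) ^ m = ((u ^ m + (p * w) ^ 2 * a : ℤ) : O) +
    ((p * w) * (u ^ (m - 1) * m + w * b * p) : ℤ) * ω by
      push_cast at e ⊢; linear_combination e + ((p : O) * w) ^ 2 * e2, q.rc_iff] at h
  rw [q.rc_iff]
  refine IsCoprime.dvd_of_dvd_mul_right ?_ h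
  rw [Nat.cast_pow]
  exact (((k1.pow_left (m := m - 1)).mul_left
    (Nat.isCoprime_iff_coprime.2 hm)).add_mul_right_left _).symm.pow_left

theorem s_om {t n₀ : ℤ} (e : ω ^ 2 = t * ω - n₀) : s ω = t - ω := by
  obtain ⟨k, h1⟩ := q.tr ω
  obtain ⟨l, h2⟩ := q.nm ω
  have := (q.ext (u := -l) (v := k) (u' := -n₀) (v' := t) (by
    push_cast; linear_combination h2 - ω * h1 + e)).2
  rw [← this]
  linear_combination h1

variable [IsDedekindDomain O]

theorem jeq (hc : 0 < c) {x y : O} (hx : Rc c x) (hy : Rc c y) (h : Cop c (span {x} * B))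
    (e : span {x} * B = span {y} * E) :
    jL (st J B (Oc J c)) = jL (st J E (Oc J c)) := by
  have k := q.kl_Oc hc
  have h' : Cop c (span {y} * E) := e ▸ h
  rw [Gm.jL_hom (q.st_span (q.kl_st k (cop_r h).1) hx (cop_l h)),
    Gm.jL_hom (q.st_span (q.kl_st k (cop_r h').1) hy (cop_l h')),
    q.st_mul k (cop_l h) (cop_r h), q.st_mul k (cop_l h') (cop_r h'), e]

theorem hom (hc : 0 < c) (hC : Cop c C) {a : ℕ} (ha : 0 < a) {b : ℤ} {z : ℍ}
    (e : a * (z : ℂ) = c * J ω - b) {ν : ℂ} (H : Hom ν (st J C (Oc J c)) (lat z)) :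
    ∃ x D, Rc c x ∧ C * D = span {x} ∧ D ∣ span {(a : O)} := by
  have H1 : ∀ w ∈ st J C (Oc J c), a * ν * w ∈ Oc J c := fun w hw => by
    obtain ⟨m, n, k⟩ := mem_lat.1 ((H.2 w).1 hw)
    exact ⟨n * a - m * b, m * ω, by
      simp only [map_mul, map_intCast]; push_cast; linear_combination m * e - a * k⟩
  obtain ⟨x, hx, e1⟩ := mem_Oc.1 (H1 1 (le_st one_mem_Oc))
  rw [mul_one] at e1
  have n0 := H.1
  have l1 : span {(a : O)} * C ≤ span {x} := by
    rw [Ideal.span_singleton_mul_le_iff]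
    refine fun y => sp_le hC fun y hy r => ?_
    obtain ⟨v, -, k⟩ := mem_Oc.1 ((H.symm.2 1).1 Hg.one_lat y hy (q.end_Oc.2 r))
    exact Ideal.mem_span_singleton'.2 ⟨v, q.inj (by
      rw [map_mul, map_mul, k, e1, map_natCast]; field_simp)⟩
  have l2 : C ∣ span {x} := by
    obtain ⟨n, n0, e2, H2⟩ := q.st_inv (q.kl_Oc hc) hC
    have n1 : (n : ℂ) ≠ 0 := Int.cast_ne_zero.2 n0
    have k := (H2.symm.2 1).1 one_mem_Oc
    have k2 : span {x} * C.comap s ≤ C * C.comap s := by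
      rw [e2, Ideal.span_singleton_mul_le_iff]
      refine fun y => sp_le (q.cop_cj hC) fun y hy r => ?_
      obtain ⟨v, -, e3⟩ := mem_Oc.1 (H1 _ (k y hy (end_st (q.end_Oc.2 r))))
      exact Ideal.mem_span_singleton'.2 ⟨v, q.inj (by
        rw [map_mul, map_mul, e3, e1, map_intCast]; field_simp)⟩
    rwa [← Ideal.dvd_iff_le, mul_dvd_mul_iff_right (q.cop_cj hC).1] at k2
  obtain ⟨D, e2⟩ := l2
  refine ⟨x, D, hx, e2.symm, ?_⟩
  rwa [← Ideal.dvd_iff_le, e2, mul_comm C, mul_dvd_mul_iff_right hC.1] at l1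

theorem desc (hp : p.Prime) (hC : Cop p C) {a n : ℕ} (ha : 0 < a) {x : O} {D : Ideal O}
    (hx : Rc (p ^ (n + 1 + a)) x) (e : C * D = span {x}) (hD : D ∣ span {(a : O)}) :
    ∃ D, D ∣ span {(a : O)} ∧ ∃ x, Rc (p ^ (n + 1)) x ∧ C * D = span {x} ∧ Cop p (span {x}) := by
  obtain ⟨k, y, rfl⟩ := hx
  have d1 : ∀ t, (p : O) ^ t ∣ k + (p ^ (n + 1 + a) : ℕ) * y → span {(p : O) ^ t} ∣ D := fun t h => by
    refine IsCoprime.dvd_of_dvd_mul_left (y := C) ?_ (e ▸ sdv.2 h)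
    rw [Ideal.isCoprime_iff_sup_eq, sup_comm, ← Nat.cast_pow]
    exact (cop_pow hC t).2
  have d2 : ¬ (p : ℤ) ^ a ∣ k := fun ⟨l, h⟩ => by
    have := sdv.1 ((d1 a ⟨l + p ^ (n + 1) * y, by
      rw [h]; push_cast; ring⟩).trans hD)
    have h2 := q.dvd_int (n := (p ^ a : ℕ)) (k := a) (by simpa using this)
    exact (Nat.lt_pow_self hp.one_lt).not_ge (Nat.le_of_dvd ha (Int.natCast_dvd_natCast.1 h2))
  have p1 := Nat.prime_iff_prime_int.1 hp
  obtain ⟨t, l, h1, rfl⟩ := WfDvdMonoid.max_power_factor' (a₀ := k) (fun h => d2 (h ▸ dvd_zero _))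
    p1.not_unit
  obtain ⟨r, rfl⟩ := Nat.exists_eq_add_of_le (not_lt.1 fun h : a < t =>
    d2 ((pow_dvd_pow _ h.le).mul_right l))
  have e1 : ((((p : ℤ) ^ t * l : ℤ) : O) + (p ^ (n + 1 + (t + r)) : ℕ) * y) =
      p ^ t * (l + (p ^ (n + 1) : ℕ) * (p ^ r * y)) := by push_cast; ring
  rw [e1] at e d1
  obtain ⟨D, rfl⟩ := d1 t (dvd_mul_right _ _)
  have p0 : span {(p : O) ^ t} ≠ ⊥ := fun h => pow_ne_zero t hp.ne_zero (by
    exact_mod_cast q.cast_inj (k := p ^ t) (l := 0) (by simpa using h))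
  rw [mul_left_comm, ← Ideal.span_singleton_mul_span_singleton] at e
  replace e := mul_left_cancel₀ p0 e
  obtain ⟨u, v, uv⟩ := (p1.irreducible.coprime_iff_not_dvd.2 h1).symm
  have uv' : (u : O) * l + v * p = 1 := by exact_mod_cast congrArg (Int.cast : ℤ → O) uv
  refine ⟨D, (dvd_mul_left _ _).trans hD, _, ⟨l, _, rfl⟩, e, cop_of (fun h => ?_)
    (Ideal.mul_mem_left _ (u : O) (Ideal.mem_span_singleton_self _))
    (b := v - u * p ^ n * (p ^ r * y)) (by push_cast; linear_combination uv')⟩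
  rw [← e, Ideal.mul_eq_bot] at h
  refine h.elim hC.1 fun h => ha.ne' ?_
  rw [h, Ideal.mul_bot, ← Ideal.zero_eq_bot, zero_dvd_iff, Ideal.zero_eq_bot,
    Ideal.span_singleton_eq_bot] at hD
  exact_mod_cast q.cast_inj (k := (t + r : ℕ)) (l := 0) (by simpa using hD)

theorem prim {t n₀ : ℤ} (e : ω ^ 2 = t * ω - n₀) (hC : Cop p C) (hs : C.comap s = C) :
    ∃ (g : ℤ) (d : ℕ) (E : Ideal O), C = span {(g : O)} * E ∧ 0 < d ∧ d.Coprime p ∧ Cn d E ∧
      2 * ω - t ∈ E := by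
  let V : Ideal ℤ :=
    { carrier := {v | ∃ u : ℤ, (u + v * ω : O) ∈ C}
      add_mem' := fun ⟨u, h⟩ ⟨u', h'⟩ => ⟨u + u', by convert add_mem h h' using 1; push_cast; ring⟩
      zero_mem' := ⟨0, by simp⟩
      smul_mem' := fun k v ⟨u, h⟩ => ⟨k * u, by
        convert C.mul_mem_left k h using 1; rw [smul_eq_mul]; push_cast; ring⟩ }
  obtain ⟨g, hg⟩ := (IsPrincipalIdealRing.principal V).principal
  have k : ∀ v : ℤ, (∃ u : ℤ, (u + v * ω : O) ∈ C) ↔ g ∣ v := fun v => by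
    rw [← Ideal.mem_span_singleton, ← Ideal.submodule_span_eq, ← hg]
    rfl
  have k2 : ∀ u v : ℤ, (u + v * ω : O) ∈ C → g ∣ u ∧ g ∣ v := fun u v h => by
    have a := (k v).1 ⟨u, h⟩
    have b := (k (u + v * t)).1 ⟨-v * n₀, by
      convert C.mul_mem_right ω h using 1; push_cast; linear_combination -v * e⟩
    exact ⟨(dvd_add_left (a.mul_right t)).1 b, a⟩
  obtain ⟨E, hE⟩ : span {(g : O)} ∣ C := Ideal.dvd_iff_le.2 fun x hx => by
    obtain ⟨u, v, rfl⟩ := q.sp x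
    obtain ⟨⟨u, rfl⟩, v, rfl⟩ := k2 u v hx
    exact Ideal.mem_span_singleton.2 ⟨u + v * ω, by push_cast; ring⟩
  have g0 : (g : O) ≠ 0 := fun h => hC.1 (by simp [hE, h])
  have m : ∀ x : O, g * x ∈ C → x ∈ E := fun x h => by
    rw [hE] at h
    obtain ⟨y, hy, e⟩ := Ideal.mem_span_singleton_mul.1 h
    exact mul_left_cancel₀ g0 e ▸ hy
  obtain ⟨u, hu⟩ := (k g).2 dvd_rfl
  obtain ⟨u, rfl⟩ := (k2 u g hu).1
  have hE' : Cop p E := cop_r (hE ▸ hC)
  obtain ⟨d, hd⟩ := (IsPrincipalIdealRing.principal (E.comap (Int.castRingHom O))).principal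
  have k3 : ∀ l : ℤ, (l : O) ∈ E ↔ (d.natAbs : ℤ) ∣ l := fun l => by
    rw [Int.natAbs_dvd, ← Ideal.mem_span_singleton, ← Ideal.submodule_span_eq, ← hd]
    rfl
  have w : (u + ω : O) ∈ E := m _ (by convert hu using 1; push_cast; ring)
  have cn : Cn d.natAbs E := ⟨k3, fun a => by
    obtain ⟨x, y, rfl⟩ := q.sp a
    exact ⟨x - y * u, by convert E.mul_mem_left y w using 1; push_cast; ring⟩⟩
  refine ⟨g, d.natAbs, E, hE, Nat.pos_of_ne_zero fun h => ?_, ?_, cn, m _ ?_⟩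
  · obtain ⟨n, n0, hn⟩ := q.ex_int hE'.1
    rw [k3, h] at hn
    exact n0 (zero_dvd_iff.1 hn)
  · obtain ⟨x, hx, b, e1⟩ := cop_ex hE'
    obtain ⟨l, hl⟩ := cn.2 b
    obtain ⟨z, hz⟩ := (k3 (1 - p * l)).1 (by
      convert add_mem hx (E.mul_mem_left p hl) using 1; push_cast; linear_combination -e1)
    exact Nat.isCoprime_iff_coprime.1 ⟨z, l, by linear_combination -hz⟩
  · have h2 : s (((g * u : ℤ) : O) + g * ω) ∈ C := by rw [← q.mem_cj, hs]; exact hu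
    rw [map_add, map_mul, map_intCast, map_intCast, s_om q e] at h2
    convert sub_mem hu h2 using 1
    ring

end Cma

open Cma

theorem cma : CMA := fun K _ _ j hK hu ω t n₀ hB e p m a U B A hp hm ha hU hA hB' H => by
  obtain ⟨s, q⟩ := ex_qd hB.inj hB.bas hB.im
  have c0 : ∀ n, 0 < p ^ n := fun n => pow_pos hp.pos n
  have big : ∀ r, ∀ᶠ n in (U : Filter ℕ), r ≤ n := fun r => hU (eventually_ge_atTop r)
  have a0 : span {(a : 𝓞 K)} ≠ 0 := fun h => ha.ne' (by simpa using h)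
  have fin : {D : Ideal (𝓞 K) | D ∣ span {(a : 𝓞 K)}}.Finite :=
    (UniqueFactorizationMonoid.fintypeSubtypeDvd _ a0).finite
  have H1 : ∀ᶠ n in (U : Filter ℕ), ∃ D ∈ {D : Ideal (𝓞 K) | D ∣ span {(a : 𝓞 K)}}, ∃ r x,
      n = r + 1 + a ∧ Rc (p ^ (r + 1)) x ∧ A * B n * D = span {x} ∧ Cop p (span {x}) := by
    filter_upwards [H, big (1 + a)] with n ⟨b, z, e1, e2⟩ hn
    obtain ⟨r, rfl⟩ : ∃ r, n = r + 1 + a := ⟨n - (1 + a), by omega⟩
    have hC := cop_mul hA (hB' (r + 1 + a)).1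
    obtain ⟨ν, k⟩ := (jh _ _ (q.kl_st (q.kl_Oc (c0 _)) hC.1).lat (isLat z)).1
      (e2.symm.trans (jL_lat z).symm)
    obtain ⟨x, D, h1, h2, h3⟩ := hom q (c0 _) (cop_pow hC _) ha e1 k
    obtain ⟨D, h4, x, h5⟩ := desc q hp hC ha h1 h2 h3
    exact ⟨D, h4, r, x, rfl, h5⟩
  obtain ⟨D, -, H2⟩ := (Ultrafilter.eventually_exists_mem_iff fin).1 H1
  have m0 : m ≠ 0 := by
    rintro rfl
    exact hp.one_lt.ne' (by simpa using hm)
  have H3 : ∀ n r x, n = r + 1 + a → A * B n * D = span {x} → Cop p (span {x}) →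
      ∃ γ β, (A * D) ^ m = span {γ} ∧ x ^ m = γ * β ∧ Rc (p ^ n) β ∧ Cop p (span {β}) ∧
        Cop p (A * D) := fun n r x hn h1 h2 => by
    obtain ⟨h3, k, y, h4⟩ := hB' n
    have h5 : B n ^ m * (A * D) ^ m = span {x ^ m} := by
      rw [← mul_pow, ← Ideal.span_singleton_pow, ← h1]; congr 1; ring
    rw [h4] at h5
    obtain ⟨γ, h6⟩ := sdv.1 (Dvd.intro _ h5)
    have h7 : Cop p (span {k + (p ^ n : ℕ) * y}) := by
      rw [← h4]
      exact ⟨pow_ne_zero m h3.1, Ideal.pow_sup_eq_top h3.2⟩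
    rw [h6, ← Ideal.span_singleton_mul_span_singleton] at h5
    exact ⟨γ, _, mul_left_cancel₀ h7.1 h5, h6.trans (mul_comm _ _), ⟨k, y, rfl⟩, h7,
      cop_l (B := B n) (by rwa [mul_right_comm, h1])⟩
  obtain ⟨n, r, x, h1, -, h2, h3⟩ := H2.exists
  obtain ⟨γ, -, hγ, -, -, -, hC⟩ := H3 n r x h1 h2 h3
  obtain ⟨u, v, rfl⟩ := q.sp γ
  obtain rfl : v = 0 := by
    obtain ⟨n, ⟨r, x, h1, h4, h2, h3⟩, hn⟩ := (H2.and (big (v.natAbs + a))).exists
    obtain ⟨γ, β, k1, k2, k3, k4, -⟩ := H3 n r x h1 h2 h3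
    have k5 : Rc (p ^ (r + 1)) (γ * β) := by
      rw [← k2]
      exact Nat.rec (by simpa using Rc.int _ 1) (fun i ih => pow_succ x i ▸ ih.mul h4) m
    have k6 := cancel q k5 (rc_le k3 (by omega)) (cop_pow k4 _)
    obtain ⟨w, k7⟩ := Ideal.span_singleton_eq_span_singleton.1 (k1.symm.trans hγ)
    have k8 : Rc (p ^ (r + 1)) (u + v * ω : 𝓞 K) := by
      rw [← k7]
      rcases hu w with rfl | rfl
      · simpa using k6
      · simpa using k6.neg
    refine Int.eq_zero_of_dvd_of_natAbs_lt_natAbs (q.rc_iff.1 k8) ?_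
    rw [Int.natAbs_natCast]
    exact lt_of_le_of_lt (by omega) (Nat.lt_pow_self hp.one_lt)
  obtain ⟨N, N0, hN⟩ := q.mul_cj hC.1
  have hs : (A * D).comap s = A * D := by
    let σ : 𝓞 K ≃+* 𝓞 K := RingEquiv.ofBijective s (Function.Involutive.bijective q.ss)
    have k : ∀ I : Ideal (𝓞 K), I.comap s = I.map σ.symm := fun I => (Ideal.map_symm σ).symm
    refine (pow_left_inj m0).1 ?_
    rw [k, ← Ideal.map_pow, hγ, Ideal.map_span]
    simp
  obtain ⟨g, d, E, h4, h5, h6, h7, h8⟩ := prim q e hC hs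
  refine ⟨d, E, h5, h6, h7, h8, ?_⟩
  filter_upwards [H2] with n ⟨r, x, h1, k4, h2, h3⟩
  obtain ⟨γ, β, k1, k2, k3, -, -⟩ := H3 n r x h1 h2 h3
  have k5 : Rc (p ^ n) (x ^ m) := by
    obtain ⟨w, k7⟩ := Ideal.span_singleton_eq_span_singleton.1 (hγ.symm.trans k1)
    rw [k2, ← k7]
    refine Rc.mul ?_ k3
    rcases hu w with rfl | rfl
    · simpa using Rc.int _ u
    · simpa using (Rc.int _ u).neg
  have k6 := root q hp hm (by simpa using rc_le k4 (Nat.le_add_left 1 r)) h3 k5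
  rw [hs] at hN
  refine jeq q (c0 n) (Rc.int _ N) (k6.mul (Rc.int _ g))
    (cop_pow (cop_mul (hN ▸ cop_mul hC hC) (hB' n).1) n) ?_
  rw [← hN, ← Ideal.span_singleton_mul_span_singleton, mul_assoc _ _ E, ← h4, ← h2]
  ring

end Vale.Agent.P014Y.Nv
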