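import Vale.Agent.P014Y.Nv.St
import Vale.Agent.P004K.Hg.Bd

/-! # P014Y, block NV: the row IDL -/

set_option autoImplicit false
set_option linter.all false

noncomputable section

namespace Vale.Agent.P014Y.Nv

open Vale.Agent.P004K
open Vale.Agent.P004K.Hg (Bs)

namespace Idl

variable {O : Type} [CommRing O] {J : O →+* ℂ} {ω : O}

theorem pos (B : Bs J ω) {t n : ℤ} (e : ω ^ 2 = t * ω - n) : 0 < n := by
  have h : J ω * J ω = t * J ω - n := by simpa [sq] using congrArg J e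
  have a := congrArg Complex.re h
  have b := congrArg Complex.im h
  simp at a b
  have c := B.im
  have d : (t : ℝ) = 2 * (J ω).re := mul_right_cancel₀ c.ne' (by linear_combination -b)
  have : (0 : ℝ) < n := by
    rw [d] at a
    nlinarith [mul_self_nonneg (J ω).re, mul_pos c c]
  exact_mod_cast this

theorem one (B : Bs J ω) {R : ℕ} (hR : 0 < R) :
    ∃ m : ℕ, 1 < m ∧ m.Coprime R ∧ ∃ A : Ideal O, Cn m A := by
  obtain ⟨t, n, e⟩ := B.sq
  have hn := pos B e
  obtain ⟨k, hk, hk'⟩ : ∃ k : ℤ, 0 < k ∧ t < k := ⟨|t| + 1, by positivity, by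
    linarith [le_abs_self t]⟩
  have hR' : (0 : ℤ) < R := by exact_mod_cast hR
  have h1 : 0 < R * k * (n * R * k - t) := by
    have : k ≤ n * R * k := le_mul_of_one_le_left hk.le (mul_pos hn hR')
    exact mul_pos (mul_pos hR' hk) (by linarith)
  obtain ⟨m, hm⟩ := Int.eq_ofNat_of_zero_le (a := R * k * (n * R * k - t) + 1) (by linarith)
  obtain ⟨A, hA, -⟩ := (B.sub (n * R * k)).ex_cn (t := t - 2 * (n * R * k)) (n := m * n) (m := m)
    (by rw [← hm]; push_cast; linear_combination e) (dvd_mul_right _ _)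
  refine ⟨m, by omega, Nat.isCoprime_iff_coprime.1 ⟨1, -(k * (n * R * k - t)), ?_⟩, A, hA⟩
  rw [← hm]
  ring

theorem mul {N M : ℕ} {I I' : Ideal O} (h : Cn N I) (h' : Cn M I') (c : N.Coprime M) :
    Cn (N * M) (I * I') ∧ ∀ x ∈ I, x ∈ I' → x ∈ I * I' := by
  obtain ⟨u, v, e⟩ := Nat.isCoprime_iff_coprime.2 c
  have e' : (u : O) * N + v * M = 1 := by exact_mod_cast congrArg (Int.cast : ℤ → O) e
  have a : (N : O) ∈ I := by simpa using (h.1 N).2 dvd_rfl
  have b : (M : O) ∈ I' := by simpa using (h'.1 M).2 dvd_rfl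
  have k : ∀ x y : O, x ∈ I → y ∈ I' → u * (N * y) + v * (x * M) ∈ I * I' := fun x y p q =>
    add_mem (Ideal.mul_mem_left _ _ (Ideal.mul_mem_mul a q))
      (Ideal.mul_mem_left _ _ (Ideal.mul_mem_mul p b))
  refine ⟨⟨fun z => ⟨fun p => ?_, fun ⟨w, p⟩ => ?_⟩, fun z => ?_⟩, fun x p q => ?_⟩
  · rw [Nat.cast_mul]
    exact (Nat.isCoprime_iff_coprime.2 c).mul_dvd ((h.1 z).1 (Ideal.mul_le_inf p).1)
      ((h'.1 z).1 (Ideal.mul_le_inf p).2)
  · rw [p]
    push_cast
    exact Ideal.mul_mem_right _ _ (Ideal.mul_mem_mul a b)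
  · obtain ⟨x, p⟩ := h.2 z
    obtain ⟨y, q⟩ := h'.2 z
    refine ⟨u * N * y + v * M * x, ?_⟩
    convert k _ _ p q using 1
    push_cast
    linear_combination -z * e'
  · convert k _ _ p q using 1
    linear_combination -x * e'

theorem dif (B : Bs J ω) {t n : ℤ} {δ : ℕ} (e : ω ^ 2 = t * ω - n) (h : 4 * n - t ^ 2 = δ)
    (o : Odd δ) : Cn δ (Ideal.span {2 * ω - t}) := by
  have h' : (4 : O) * n - t ^ 2 = δ := by exact_mod_cast congrArg (Int.cast : ℤ → O) h
  obtain ⟨d, hd⟩ := o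
  have hd' : (δ : O) = 2 * d + 1 := by rw [hd]; push_cast; rfl
  refine ⟨fun k => Ideal.mem_span_singleton'.trans ⟨fun ⟨a, p⟩ => ?_, fun ⟨w, p⟩ =>
    ⟨-w * (2 * ω - t), ?_⟩⟩, fun a => ?_⟩
  · obtain ⟨u, v, rfl⟩ := B.bas a
    have q : ((2 * u + v * t : ℤ) : O) * ω + (-(u * t) - 2 * v * n : ℤ) = (0 : ℤ) * ω + k := by
      push_cast
      linear_combination p - 2 * v * e
    obtain ⟨r, s⟩ := B.ind (a := 2 * u + v * t) (b := -(u * t) - 2 * v * n) (c := 0) (d := k) (by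
      simpa only [map_add, map_mul, map_intCast] using congrArg J q)
    have z : 2 * k = δ * -v := by rw [← s, ← h]; linear_combination -t * r
    have hd2 : (δ : ℤ) = 2 * d + 1 := by exact_mod_cast hd
    exact ⟨-d * -v + k, by linear_combination (-k) * hd2 - (d : ℤ) * z⟩
  · rw [p]
    push_cast
    linear_combination -4 * w * e + w * h'
  · obtain ⟨u, v, rfl⟩ := B.bas a
    refine ⟨u - v * d * t, Ideal.mem_span_singleton'.2 ⟨-v * ((2 * ω - t) * ω + d), ?_⟩⟩
    push_cast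
    linear_combination -4 * v * ω * e + v * ω * h' + v * ω * hd'

end Idl

theorem idl : IDL := fun O _ J ω B => by
  refine ⟨fun R hR => ?_, fun _ _ _ _ => Idl.mul, fun _ _ _ => Idl.dif B⟩
  haveI : Std.Symm Nat.Coprime := ⟨fun _ _ => Nat.Coprime.symm⟩
  obtain ⟨m, p, q⟩ := exists_seq_of_forall_finset_exists'
    (fun m : ℕ => 1 < m ∧ m.Coprime R ∧ ∃ A : Ideal O, Cn m A) Nat.Coprime fun s hs => by
      obtain ⟨m, a, b, c⟩ := Idl.one B (R := R * ∏ x ∈ s, x)
        (mul_pos hR (Finset.prod_pos fun x hx => by have := (hs x hx).1; omega))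
      exact ⟨m, ⟨a, b.coprime_mul_right_right, c⟩, fun x hx =>
        (b.coprime_mul_left_right.coprime_dvd_right (Finset.dvd_prod_of_mem _ hx)).symm⟩
  choose a b A hA using p
  exact ⟨m, A, fun i => ⟨a i, b i, hA i⟩, fun i k h => q h⟩

end Vale.Agent.P014Y.Nv
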