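import Vale.Agent.P014Y.Nv.St
import Vale.Agent.P027H.Add

/-! # P014Y, block NV: ultrapowers, the invariant differential (helper85) -/

set_option autoImplicit false
set_option linter.all false

open Filter

noncomputable section

namespace Vale.Agent.P014Y.Nv

open P027H

theorem ult : ULT := fun U => by
  letI : Algebra ℂ (Germ (U : Filter ℕ) ℂ) :=
    ((Germ.coeRingHom (U : Filter ℕ)).comp (algebraMap ℂ (ℕ → ℂ))).toAlgebra
  exact ⟨Germ (U : Filter ℕ) ℂ, inferInstance, inferInstance,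
    ⟨Germ.coeRingHom (U : Filter ℕ), fun _ => rfl⟩, fun z => Germ.coe_eq⟩

namespace Lam

variable {U : Ultrafilter ℕ} {L : Type} [Field L] [Algebra ℂ L] {π : (ℕ → ℂ) →ₐ[ℂ] L}
  {Λ : Submodule ℤ ℂ} {z w : ℕ → ℂ}

theorem chord [CharZero L] {x y x' y' s x3 y3 g l l' ds : L} (hne : x ≠ x')
    (hs : s * (x - x') = y - y')
    (e : y ^ 2 - y' ^ 2 = 4 * x ^ 3 - g * x - (4 * x' ^ 3 - g * x'))
    (h3 : 4 * x3 = s ^ 2 - 4 * x - 4 * x') (h4 : y3 = -(y + s * (x3 - x)))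
    (d : 2 * (s * (y * l - y' * l') + (x - x') * ds) =
      (12 * x ^ 2 - g) * l - (12 * x' ^ 2 - g) * l') {dx dy : L}
    (hx : 4 * dx = 2 * s * ds - 4 * (y * l) - 4 * (y' * l'))
    (hy : 2 * dy = -((12 * x ^ 2 - g) * l + 2 * s * (dx - y * l) + 2 * (x3 - x) * ds)) :
    dx = y3 * (l + l') ∧ 2 * dy = (12 * x3 ^ 2 - g) * (l + l') := by
  have n := sub_ne_zero.2 hne
  obtain rfl : y' = y - s * (x - x') := by linear_combination hs
  obtain rfl : g = 4 * (x ^ 2 + x * x' + x' ^ 2) - s * (2 * y - s * (x - x')) :=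
    mul_left_cancel₀ n (by linear_combination e)
  obtain rfl : x3 = s ^ 2 / 4 - x - x' := by linear_combination h3 / 4
  subst h4
  have a : dx = -(y + s * (s ^ 2 / 4 - x - x' - x)) * (l + l') :=
    mul_left_cancel₀ n (by linear_combination (x - x') / 4 * hx + s / 4 * d)
  refine ⟨a, mul_left_cancel₀ n ?_⟩
  rw [hy, a]
  linear_combination -(s ^ 2 / 4 - x - x' - x) * d

variable (h : Up U π) (hΛ : IsLat Λ) (D : Derivation ℂ L L)
include h

theorem eq_iff : π z = π w ↔ ∀ᶠ n in (U : Filter ℕ), z n = w n := by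
  rw [← sub_eq_zero, ← map_sub, h]
  simp only [Pi.sub_apply, sub_eq_zero]

theorem ne_iff : π z ≠ π w ↔ ∀ᶠ n in (U : Filter ℕ), z n ≠ w n := by
  rw [Ne, eq_iff h, Ultrafilter.eventually_not]

omit h in
/-- the first coordinate -/
abbrev X (π : (ℕ → ℂ) →ₐ[ℂ] L) (Λ : Submodule ℤ ℂ) (z : ℕ → ℂ) : L := π fun n => wp Λ (z n)

omit h in
/-- the second coordinate -/
abbrev Y (π : (ℕ → ℂ) →ₐ[ℂ] L) (Λ : Submodule ℤ ℂ) (z : ℕ → ℂ) : L := π fun n => dwp Λ (z n)

omit h in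
/-- the differential -/
def lm (π : (ℕ → ℂ) →ₐ[ℂ] L) (Λ : Submodule ℤ ℂ) (D : Derivation ℂ L L) (z : ℕ → ℂ) : L :=
  D (X π Λ z) / Y π Λ z

omit h in
theorem cst (c : ℂ) : π (fun _ => c) = algebraMap ℂ L c := π.commutes c

include hΛ

theorem ode (hz : ∀ᶠ n in (U : Filter ℕ), z n ∉ Λ) : Y π Λ z ^ 2 =
    4 * X π Λ z ^ 3 - algebraMap ℂ L (g2 Λ) * X π Λ z - algebraMap ℂ L (g3 Λ) := by
  rw [← cst (π := π), ← cst (π := π), ← map_ofNat π 4]
  simp only [← map_pow, ← map_mul, ← map_sub]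
  exact (eq_iff h).2 (hz.mono fun n hn => hΛ.ode hn)

theorem smp (hz : ∀ᶠ n in (U : Filter ℕ), z n ∉ Λ) (y : Y π Λ z = 0) :
    12 * X π Λ z ^ 2 - algebraMap ℂ L (g2 Λ) ≠ 0 := by
  rw [← cst (π := π), ← map_ofNat π 12, ← map_zero π]
  simp only [← map_pow, ← map_mul, ← map_sub]
  exact (ne_iff h).2 ((hz.and ((h _).1 y)).mono fun n hn => hΛ.simple hn.1 hn.2)

theorem spec (hz : ∀ᶠ n in (U : Filter ℕ), z n ∉ Λ) : D (X π Λ z) = Y π Λ z * lm π Λ D z ∧
    2 * D (Y π Λ z) = (12 * X π Λ z ^ 2 - algebraMap ℂ L (g2 Λ)) * lm π Λ D z := by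
  have e := congrArg D (ode h hΛ hz)
  have d4 : D 4 = 0 := D.map_natCast 4
  simp only [map_sub, D.leibniz, D.leibniz_pow, D.map_algebraMap, d4, smul_eq_mul, nsmul_eq_mul,
    mul_zero, add_zero, sub_zero, Nat.cast_ofNat, Nat.add_one_sub_one, pow_one] at e
  by_cases y : Y π Λ z = 0
  · have k : D (X π Λ z) = 0 := (mul_eq_zero.1 (by
      rw [y] at e
      linear_combination -e)).resolve_left (smp h hΛ hz y)
    rw [lm, k, y, map_zero]
    simp
  · have k : D (X π Λ z) = Y π Λ z * lm π Λ D z := by rw [lm, mul_div_cancel₀ _ y]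
    refine ⟨k, mul_left_cancel₀ y ?_⟩
    rw [k] at e
    linear_combination e

theorem key (hz : ∀ᶠ n in (U : Filter ℕ), z n ∉ Λ) (hw : ∀ᶠ n in (U : Filter ℕ), w n ∉ Λ)
    (ne : X π Λ z ≠ X π Λ w) : (∀ᶠ n in (U : Filter ℕ), (z + w) n ∉ Λ) ∧
      lm π Λ D (z + w) = lm π Λ D z + lm π Λ D w := by
  have : CharZero L := (algebraMap ℂ L).charZero_iff (algebraMap ℂ L).injective |>.1 inferInstance
  have a := (hz.and (hw.and ((ne_iff h).1 ne))).mono fun n k => And.intro k.2.2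
    (hΛ.add k.1 k.2.1 k.2.2)
  have N : ∀ᶠ n in (U : Filter ℕ), (z + w) n ∉ Λ := a.mono fun n k => k.2.1
  refine ⟨N, ?_⟩
  obtain ⟨s, hs⟩ : ∃ s, s = π fun n => sl (wp Λ (z n)) (dwp Λ (z n)) (wp Λ (w n)) (dwp Λ (w n)) :=
    ⟨_, rfl⟩
  have e1 : s * (X π Λ z - X π Λ w) = Y π Λ z - Y π Λ w := by
    simp only [hs, ← map_mul, ← map_sub]
    exact (eq_iff h).2 (a.mono fun n k => div_mul_cancel₀ _ (sub_ne_zero.2 k.1))
  have e2 : 4 * X π Λ (z + w) = s ^ 2 - 4 * X π Λ z - 4 * X π Λ w := by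
    rw [← map_ofNat π 4]
    simp only [hs, ← map_mul, ← map_sub, ← map_pow]
    refine (eq_iff h).2 (a.mono fun n k => ?_)
    simp only [Pi.mul_apply, Pi.sub_apply, Pi.pow_apply, Pi.add_apply, Pi.ofNat_apply, k.2.2.1, aX]
    ring
  have e3 : Y π Λ (z + w) = -(Y π Λ z + s * (X π Λ (z + w) - X π Λ z)) := by
    simp only [hs, ← map_mul, ← map_sub, ← map_add, ← map_neg]
    refine (eq_iff h).2 (a.mono fun n k => ?_)
    simp only [Pi.mul_apply, Pi.sub_apply, Pi.neg_apply, Pi.add_apply, k.2.2.1, k.2.2.2, aY]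
  obtain ⟨z1, z2⟩ := spec h hΛ D hz
  obtain ⟨w1, w2⟩ := spec h hΛ D hw
  obtain ⟨v1, v2⟩ := spec h hΛ D N
  have d1 := congrArg D e1
  have d2 := congrArg D e2
  have d3 := congrArg D e3
  have d4 : D 4 = 0 := D.map_natCast 4
  simp only [map_sub, map_add, map_neg, D.leibniz, D.leibniz_pow, d4, smul_eq_mul, nsmul_eq_mul,
    mul_zero, add_zero, Nat.cast_ofNat, Nat.add_one_sub_one, pow_one, z1, w1] at d1 d2 d3
  obtain ⟨c1, c2⟩ := chord (g := algebraMap ℂ L (g2 Λ)) (l := lm π Λ D z) (l' := lm π Λ D w)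
    (ds := D s) (dx := D (X π Λ (z + w))) (dy := D (Y π Λ (z + w))) ne e1
    (by linear_combination ode h hΛ hz - ode h hΛ hw) e2 e3 (by linear_combination 2 * d1 + z2 - w2)
    (by linear_combination d2) (by linear_combination 2 * d3 - z2)
  by_cases y : Y π Λ (z + w) = 0
  · exact mul_left_cancel₀ (smp h hΛ N y) (v2.symm.trans c2)
  · exact mul_left_cancel₀ y (v1.symm.trans c1)

theorem cgr (k : ∀ᶠ n in (U : Filter ℕ), z n - w n ∈ Λ) : lm π Λ D z = lm π Λ D w := by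
  rw [lm, lm, show X π Λ z = X π Λ w from (eq_iff h).2 (k.mono fun n => hΛ.wp_congr),
    show Y π Λ z = Y π Λ w from (eq_iff h).2 (k.mono fun n => hΛ.dwp_congr)]

theorem mem (k : ∀ᶠ n in (U : Filter ℕ), z n ∈ Λ) : lm π Λ D z = 0 := by
  rw [lm, show Y π Λ z = 0 from (h _).2 (k.mono fun n => hΛ.dwp_mem), div_zero]

theorem opp (k : ∀ᶠ n in (U : Filter ℕ), z n + w n ∈ Λ) : lm π Λ D z + lm π Λ D w = 0 := by
  rw [lm, lm, show X π Λ z = X π Λ w from (eq_iff h).2 (k.mono fun n => hΛ.wp_congr'),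
    show Y π Λ z = π (-fun n => dwp Λ (w n)) from (eq_iff h).2 (k.mono fun n => hΛ.dwp_congr'),
    map_neg, div_neg, neg_add_cancel]

theorem add (z w : ℕ → ℂ) : lm π Λ D (z + w) = lm π Λ D z + lm π Λ D w := by
  rcases U.em fun n => z n ∈ Λ with hz | hz
  · rw [mem h hΛ D hz, zero_add]
    exact cgr h hΛ D (hz.mono fun n k => by simpa using k)
  rcases U.em fun n => w n ∈ Λ with hw | hw
  · rw [mem h hΛ D hw, add_zero]
    exact cgr h hΛ D (hw.mono fun n k => by simpa using k)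
  rcases U.em fun n => z n + w n ∈ Λ with s | s
  · rw [opp h hΛ D s]
    exact mem h hΛ D s
  rcases U.em fun n => z n - w n ∈ Λ with d | d
  swap
  · exact (key h hΛ D hz hw ((ne_iff h).2 ((hz.and (hw.and (d.and s))).mono fun n k =>
      hΛ.wp_ne k.1 k.2.1 k.2.2.1 k.2.2.2))).2
  obtain ⟨a, -, ha, -⟩ := hΛ.exists_two
  have m (k j : ℤ) (e : (j * k : ℂ) = 12) : (k * (a / 12) : ℂ) ∉ Λ := fun t => ha (by
    have := Λ.smul_mem j t
    rwa [zsmul_eq_mul, ← mul_assoc, e, mul_div_cancel₀ _ (by norm_num)] at this)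
  obtain ⟨c, c1, c2, c3⟩ : ∃ c : ℂ, c ∉ Λ ∧ c + c ∉ Λ ∧ X π Λ z ≠ X π Λ fun _ => c := by
    have m1 := m 1 12 (by norm_num)
    have m2 := m 2 6 (by norm_num)
    have m3 := m 3 4 (by norm_num)
    have m4 := m 4 3 (by norm_num)
    have m5 := m (-1) (-12) (by norm_num)
    by_cases e : X π Λ z = X π Λ fun _ => (1 : ℤ) * (a / 12)
    · refine ⟨_, m2, by convert m4 using 2; push_cast; ring, e ▸ (ne_iff h).2 (.of_forall fun _ =>
        hΛ.wp_ne m1 m2 (by convert m5 using 2; push_cast; ring)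
          (by convert m3 using 2; push_cast; ring))⟩
    · exact ⟨_, m1, by convert m2 using 2; push_cast; ring, e⟩
  have z0 (c : ℂ) : lm π Λ D (fun _ => c) = 0 := by
    rw [lm, show X π Λ (fun _ => c) = algebraMap ℂ L _ from cst _, D.map_algebraMap, zero_div]
  obtain ⟨a1, a2⟩ := key h hΛ D hz (w := fun _ => c) (.of_forall fun _ => c1) c3
  obtain ⟨b1, b2⟩ := key h hΛ D hw (w := fun _ => -c) (.of_forall fun _ k => c1 (neg_mem_iff.1 k))
    (by
      rw [← show X π Λ z = X π Λ w from (eq_iff h).2 (d.mono fun n => hΛ.wp_congr)]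
      simpa only [X, hΛ.wp_neg] using c3)
  have k := (key h hΛ D a1 b1 ((ne_iff h).2 ((a1.and (b1.and (d.and s))).mono fun n k =>
    hΛ.wp_ne k.1 k.2.1 (fun t => c2 (by
      convert sub_mem t k.2.2.1 using 1
      simp only [Pi.add_apply]
      ring)) fun t => k.2.2.2 (by
      convert t using 1
      simp only [Pi.add_apply]
      ring)))).2
  rw [a2, b2, z0, z0, add_zero, add_zero] at k
  rw [← k]
  congr 1
  funext n
  simp only [Pi.add_apply]
  ring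

end Lam

theorem lam : LAM := fun U L _ _ π h Λ hΛ D =>
  ⟨AddMonoidHom.mk' (Lam.lm π Λ D) (Lam.add h hΛ D), fun _ =>
    ⟨Lam.mem h hΛ D, fun k => (Lam.spec h hΛ D k).1⟩⟩

end Vale.Agent.P014Y.Nv
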