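import Vale.Agent.P014Y.Nv.St
import Vale.Agent.P004K.Lt

/-! # P014Y, block NV: rows PTS and TRA -/

set_option autoImplicit false
set_option linter.all false

open UpperHalfPlane NumberField Filter Polynomial

noncomputable section

namespace Vale.Agent.P014Y.Nv

open Vale.Agent.P022 Vale.Agent.P004K P027H P027M.M Vale.Agent.P022.H218.L3
open Vale.Agent.P004K.Hg

namespace Pts

theorem down {σ : ℂ ≃+* ℂ} {N m : ℕ} {τ τ' z z' : ℍ} (hN : 0 < N) (hm : 0 < m)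
    (h : Cj0 σ (N * m) τ τ') (e : (z : ℂ) = m * τ) (e' : (z' : ℂ) = m * τ') : Cj0 σ N z z' := by
  obtain ⟨ψ, t, a, ha⟩ := h
  obtain ⟨u, v, uv⟩ := cop_cj (mul_pos hN hm) t ha
  have N0 : (N : ℂ) ≠ 0 := by exact_mod_cast hN.ne'
  have m0 : (m : ℂ) ≠ 0 := by exact_mod_cast hm.ne'
  have uv' : (u : ℂ) * a + v * (N * m) = 1 := by exact_mod_cast uv
  have h1 := hom_ov hm (Hom.refl (lat τ)) e
  have h2 := hom_ov hm (Hom.refl (lat τ')) e'
  have k : ∀ (b : ℤ) (w : ℂ), w - b * (1 / m) ∈ lat τ ↔ ψ w - b * a * (1 / m) ∈ lat τ' :=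
      fun b w => by
    have k1 := add_mem (t.int (b * N) (1 / (N * m : ℕ))) (int_mul_mem (b * N) ha)
    rw [show ((b * N : ℤ) : ℂ) * (1 / (N * m : ℕ)) = b * (1 / m) by push_cast; field_simp] at k1
    rw [← t.sub_iff]
    exact ⟨fun p => mem_of_eq (add_mem p k1) (by push_cast; field_simp; ring),
      fun p => mem_of_eq (sub_mem p k1) (by push_cast; field_simp; ring)⟩
  have t1 := t.sup' le_ov (h1.isLat (isLat z)) (le_ov (x := 1 / m)) fun w => by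
    rw [mem_ov, mem_ov]
    refine ⟨fun ⟨b, p⟩ => ⟨b * u, (k _ w).2 (mem_of_eq (add_mem p (lat_mem 0 (b * v * N))) ?_)⟩,
      fun ⟨b, p⟩ => ⟨b * a, by simpa using (k b w).1 p⟩⟩
    push_cast
    field_simp
    linear_combination (-b : ℂ) * uv'
  refine ⟨_, (t1.homL h1).homR h2.symm, a, (h2.2 _).2 (le_ov (mem_of_eq ha ?_))⟩
  rw [show 1 / (m : ℂ) * (1 / N) = 1 / (N * m : ℕ) by push_cast; field_simp]
  push_cast
  field_simp

end Pts

theorem pts (hJ : JH) (h1 : P004K.RC1) : PTS := by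
  refine ⟨fun σ N m τ τ' z z' => Pts.down, ?_⟩
  intro K _ _ j q η t n B e N m c I I' τ z hN hm hc co hn hn' i1 i2 hτ hz
  have N0 : (N : ℂ) ≠ 0 := by exact_mod_cast hN.ne'
  have m0 : (m : ℂ) ≠ 0 := by exact_mod_cast hm.ne'
  obtain ⟨τ₀, h0, hω⟩ := B.hom hc t
  obtain rfl : τ₀ = τ := UpperHalfPlane.ext (mul_right_cancel₀ hω.1 (h0.trans hτ.symm))
  have k1 := B.st_Oc hc hN e hn i1
  have k2 := B.st_Oc hc hm e hn' i2
  generalize (c * (t - JJ j η) : ℂ) = ω at hω k1 k2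
  have hh := hom_ov hm hω hz
  have ej := jL_hom hh (isLat z)
  refine ⟨by rw [k2, ej, jL_lat], fun g σ ar ex => ?_⟩
  obtain ⟨ψ, s⟩ := tp_of_j hJ (σ := σ) (B.lat hc) (hh.isLat (isLat _))
    (by rw [ar_j h1 q hc ex, ar.2, k2])
  refine (st_cj hN (at_iff.2 ⟨ω, hω, k1⟩) s (ex.JJ ar.1)).1 (at_iff.2 ⟨_, hh, ?_⟩)
  have co' : IsCoprime (m : ℤ) N := Nat.isCoprime_iff_coprime.2 co.symm
  rw [st_ov (m := m) (mem_of_eq ((hω.2 1).1 Hg.one_lat) (by push_cast; field_simp))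
    ((hn.1 N).2 dvd_rfl) co' k1]
  obtain ⟨u, v, uv⟩ := co'
  have uv' : (u : ℂ) * m + v * N = 1 := by exact_mod_cast uv
  refine le_antisymm (ov_le le_ov (mem_of_eq (nat_mul_mem m self_ov) (by field_simp)))
    (ov_le le_ov (mem_of_eq (add_mem (int_mul_mem u self_ov) (int_mul_mem v (le_ov self_ov))) ?_))
  field_simp
  linear_combination -ω * uv'

theorem tra (hI : IQ) (hJ : JH) (h1 : P004K.RC1) : TRA := by
  intro K _ _ j q U L _ _ π hU up p g hp hg ⟨P, P0, hP⟩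
  obtain ⟨η, B⟩ := bs hI q j
  have pp := fun n => pow_pos (zero_lt_one.trans hp) n
  obtain ⟨x, hx⟩ : ∃ x : ℕ → ℂ, x = fun n => io (g n (jc j (p ^ n))) := ⟨_, rfl⟩
  rw [← hx, aeval_algHom_apply, up] at hP
  obtain ⟨r, -, hr⟩ := (Ultrafilter.eventually_exists_mem_iff (f := U)
    (is := (P.roots.toFinset : Set ℂ)) (P := fun r n => x n = r) (Finset.finite_toSet _)).1
    (hP.mono fun n hn => ⟨x n, by
      rw [aeval_fn_apply, coe_aeval_eq_eval] at hn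
      simpa [P0] using hn, rfl⟩)
  obtain ⟨n, hn⟩ := hr.exists
  obtain ⟨n', hn', lt⟩ := (hr.and (hU (eventually_gt_atTop n))).exists
  obtain ⟨σ, e⟩ := ex_ex (g n)
  obtain ⟨σ', e'⟩ := ex_ex (g n')
  obtain ⟨Λ, ψ, t⟩ := ex_tp (B.lat (pp n)) σ
  obtain ⟨ψ', t'⟩ := tp_of_j hJ (σ := σ') (B.lat (pp n')) t.lat' (by
    rw [t.jL, ar_j h1 q (pp n) e, ar_j h1 q (pp n') e']
    exact (congrFun hx n).symm.trans (hn.trans (hn'.symm.trans (congrFun hx n'))))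
  obtain ⟨k, a, ha⟩ := end_Oc.1 ((tp_end t' (e'.JJ (hg n')) _).1
    ((tp_end t (e.JJ (hg n)) _).2 (kl_Oc η)))
  obtain ⟨u, v, rfl⟩ := B.bas a
  have := (B.ind (a := (p ^ n : ℕ)) (b := 0) (c := (p ^ n' : ℕ) * v) (d := k + (p ^ n' : ℕ) * u)
    (by simp only [map_mul, map_add, map_natCast, map_intCast] at ha; push_cast at ha ⊢
        linear_combination ha)).1
  exact (Nat.pow_lt_pow_right hp lt).not_ge (Nat.le_of_dvd (pp n)
    (Int.natCast_dvd_natCast.1 ⟨v, this⟩))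

end Vale.Agent.P014Y.Nv
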