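import Vale.Agent.P014Y.Nv.St

/-! # P014Y, block NV: the row RAT -/

set_option autoImplicit false
set_option linter.all false

open Filter Polynomial

noncomputable section

namespace Vale.Agent.P014Y.Nv

open Vale.Agent.P022 P027M.M

namespace Rat

theorem lift {L : Type} [Field L] [Algebra ℂ L] {u v : L} (h : Al u v) :
    ∃ P : ℂ[X][X], P ≠ 0 ∧ (P.map (mapRingHom (algebraMap ℂ L))).evalEval u v = 0 := by
  obtain ⟨p, p0, e⟩ := h
  let f : ℂ[X] →+* Algebra.adjoin ℂ {u} :=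
    (aeval (⟨u, Algebra.self_mem_adjoin_singleton ℂ u⟩ : Algebra.adjoin ℂ {u})).toRingHom
  have hf : Function.Surjective f := fun ⟨x, hx⟩ => by
    rw [Algebra.adjoin_singleton_eq_range_aeval] at hx
    obtain ⟨q, rfl⟩ := hx
    exact ⟨q, Subtype.ext (aeval_algHom_apply (Algebra.adjoin ℂ {u}).val _ q).symm⟩
  obtain ⟨P, rfl⟩ := map_surjective f hf p
  refine ⟨P, fun z => p0 (by simp [z]), ?_⟩
  rw [aeval_def, eval₂_map] at e
  rw [← e, evalEval, eval_map, ← coe_evalRingHom, hom_eval₂]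
  congr 1
  · refine ringHom_ext (fun a => ?_) ?_
    · simp [f]
    · simp [f]
  · simp

theorem fn {K F : Type} [Field K] [Field F] [Algebra K F] {P : F[X][X]} (h : P ≠ 0) :
    ∃ Q : K[X][X], Q ≠ 0 ∧ ∀ x y : K,
      P.evalEval (algebraMap K F x) (algebraMap K F y) = 0 → Q.evalEval x y = 0 := by
  obtain ⟨i, hi⟩ : ∃ i, P.coeff i ≠ 0 := ⟨_, leadingCoeff_ne_zero.2 h⟩
  obtain ⟨j, hj⟩ : ∃ j, (P.coeff i).coeff j ≠ 0 := ⟨_, leadingCoeff_ne_zero.2 hi⟩
  obtain ⟨l, hl⟩ : ∃ l : Module.Dual K F, l ((P.coeff i).coeff j) ≠ 0 := by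
    by_contra! c
    exact hj ((Module.forall_dual_apply_eq_zero_iff K _).1 c)
  refine ⟨∑ a ∈ P.support, monomial a (∑ b ∈ (P.coeff a).support,
    monomial b (l ((P.coeff a).coeff b))), fun z => hl ?_, fun x y e => ?_⟩
  · have := congrArg (fun q : K[X][X] => (q.coeff i).coeff j) z
    simpa [finset_sum_coeff, coeff_monomial, hi, hj] using this
  · have e' := congrArg l e
    rw [evalEval, eval_eq_sum (p := P), sum_def, eval_finset_sum, map_sum, map_zero] at e'
    rw [evalEval, eval_finset_sum, eval_finset_sum, ← e']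
    refine Finset.sum_congr rfl fun a _ => ?_
    rw [eval_monomial, eval_mul, eval_mul, eval_pow, eval_pow, eval_C, eval_C, eval_finset_sum,
      eval_eq_sum, sum_def, Finset.sum_mul, Finset.sum_mul, map_sum]
    refine Finset.sum_congr rfl fun b _ => ?_
    rw [eval_monomial, ← map_pow, ← map_pow, mul_assoc, mul_assoc, ← map_mul, mul_comm _
      (algebraMap K F _), ← Algebra.smul_def, map_smul, smul_eq_mul, mul_comm]

theorem dsc {K F : Type} [Field K] [Field F] [Algebra K F] [Algebra.IsAlgebraic K F] {Q : F[X][X]}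
    (h : Q ≠ 0) : ∃ Ψ : K[X][X], Ψ ≠ 0 ∧ Q ∣ Ψ.map (mapRingHom (algebraMap K F)) :=
  letI := Polynomial.algebra K F
  Polynomial.exists_dvd_map_of_isAlgebraic (R := K[X]) (S := F[X]) h

end Rat

theorem rat : RAT := fun U L _ _ π hπ x y h => by
  obtain ⟨P, P0, e⟩ := Rat.lift h
  letI : Algebra Qb ℂ := (io : Qb →+* ℂ).toAlgebra
  haveI : Algebra.IsAlgebraic ℚ Qb := AlgebraicClosure.isAlgebraic ℚ
  obtain ⟨Q, Q0, hQ⟩ := Rat.fn (K := Qb) P0
  obtain ⟨Ψ, Ψ0, R, hR⟩ := Rat.dsc (K := ℚ) Q0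
  have k : ∀ P : ℂ[X][X], π (fun n => P.evalEval (io (x n)) (io (y n))) =
      (P.map (mapRingHom (algebraMap ℂ L))).evalEval (π fun n => io (x n)) (π fun n => io (y n)) := by
    intro P
    have a := map_mapRingHom_evalEval (π : (ℕ → ℂ) →+* L)
      (P.map (mapRingHom (algebraMap ℂ (ℕ → ℂ)))) (fun n => io (x n)) (fun n => io (y n))
    rw [Polynomial.map_map, mapRingHom_comp, AlgHom.comp_algebraMap] at a
    refine Eq.trans (congrArg π (funext fun n => ?_)) a.symm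
    have b := map_mapRingHom_evalEval (Pi.evalRingHom (fun _ : ℕ => ℂ) n)
      (P.map (mapRingHom (algebraMap ℂ (ℕ → ℂ)))) (fun n => io (x n)) (fun n => io (y n))
    rw [Polynomial.map_map, mapRingHom_comp] at b
    refine Eq.trans ?_ b
    rw [show (Pi.evalRingHom (fun _ : ℕ => ℂ) n).comp (algebraMap ℂ (ℕ → ℂ)) = RingHom.id ℂ from rfl,
      mapRingHom_id, Polynomial.map_id]
    rfl
  refine ⟨Ψ, Ψ0, ((hπ _).1 ((k P).trans e)).mono fun n hn => ?_⟩
  rw [hR, evalEval_mul, hQ _ _ hn, zero_mul]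

end Vale.Agent.P014Y.Nv
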