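import Mathlib

/-! Derivations of fields of characteristic zero. -/

set_option linter.all false

namespace Vale.Agent.P014Y.Nv.Der

open Polynomial

theorem der0 (F L : Type) [Field F] [Field L] [Algebra F L] [CharZero F] {t : L}
    (ht : Transcendental F t) : ∃ D : Derivation F L L, D t = 1 := by
  classical
  have h1 : AlgebraicIndepOn F id ({t} : Set L) := by
    rw [AlgebraicIndepOn, algebraicIndependent_unique_type_iff]
    exact ht
  obtain ⟨B, hB, hb⟩ := exists_isTranscendenceBasis_superset h1
  let S := MvPolynomial B F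
  let i : B := ⟨t, hB rfl⟩
  letI : Algebra S L := (MvPolynomial.aeval (R := F) ((↑) : B → L)).toRingHom.toAlgebra
  have ham : ∀ s : S, algebraMap S L s = MvPolynomial.aeval ((↑) : B → L) s := fun _ => rfl
  have : IsScalarTower F S L := IsScalarTower.of_algebraMap_eq fun x => by rw [ham]; simp [S]
  have inj : Function.Injective (algebraMap S L) := hb.1
  have : FaithfulSMul S L := (faithfulSMul_iff_algebraMap_injective S L).2 inj
  let Q := FractionRing S
  letI : Algebra Q L := FractionRing.liftAlgebra S L
  have alg : Algebra.IsAlgebraic S L := by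
    have := hb.isAlgebraic
    refine Algebra.IsAlgebraic.of_ringHom_of_comp_eq (f := hb.1.aevalEquiv.toRingEquiv.toRingHom)
      (g := RingHom.id L) hb.1.aevalEquiv.surjective (fun _ _ h => h) ?_
    refine RingHom.ext fun s => ?_
    exact hb.1.algebraMap_aevalEquiv s
  have : Algebra.IsAlgebraic Q L := IsFractionRing.comap_isAlgebraic_iff.1 alg
  have : Algebra.FormallyEtale S Q := Algebra.FormallyEtale.of_isLocalization (nonZeroDivisors S)
  have : Algebra.FormallyEtale Q L := Algebra.FormallyEtale.of_isSeparable Q L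
  have : Algebra.FormallyEtale S L := Algebra.FormallyEtale.comp S Q L
  let D0 : Derivation F S L := (Algebra.linearMap S L).compDer (MvPolynomial.pderiv i)
  let l : TensorProduct S L Ω[S⁄F] →ₗ[L] L := LinearMap.liftBaseChange L D0.liftKaehlerDifferential
  refine ⟨(l ∘ₗ (KaehlerDifferential.tensorKaehlerEquivOfFormallyEtale F S L).symm.toLinearMap).compDer
    (KaehlerDifferential.D F L), ?_⟩
  have : t = algebraMap S L (MvPolynomial.X i) := by rw [ham]; simp [i]
  rw [this]
  change l ((KaehlerDifferential.tensorKaehlerEquivOfFormallyEtale F S L).symm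
    (KaehlerDifferential.D F L _)) = 1
  rw [KaehlerDifferential.tensorKaehlerEquivOfFormallyEtale_symm_D_algebraMap]
  simp [l, D0, MvPolynomial.pderiv_X_self]
  exact MvPolynomial.pderiv_X_self i

variable {k L : Type} [Field k] [Field L] [Algebra k L] [CharZero k]

/-- **DER** -/
theorem der (A : Subalgebra k L) {t : L} (ht : Transcendental A t) :
    ∃ D : Derivation k L L, (∀ a ∈ A, D a = 0) ∧ D t = 1 := by
  let F := IntermediateField.adjoin k (A : Set L)
  have h : Transcendental F t := by
    rw [IntermediateField.transcendental_adjoin_iff, Algebra.adjoin_eq]; exact ht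
  obtain ⟨D, hD⟩ := der0 F L h
  exact ⟨D.restrictScalars k, fun a ha =>
    D.map_algebraMap ⟨a, IntermediateField.subset_adjoin k _ ha⟩, hD⟩

theorem d_eval (D : Derivation k L L) (P : L[X]) (x : L) :
    D (P.eval x) = (P.sum fun n a => D a * x ^ n) + (derivative P).eval x * D x := by
  induction P using Polynomial.induction_on' with
  | add p q hp hq =>
    rw [eval_add, map_add, hp, hq, derivative_add, eval_add, sum_add_index] <;> intros <;>
      simp [add_mul]
    ring
  | monomial n a =>
    rw [sum_monomial_index _ _ (by simp)]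
    simp only [eval_monomial, derivative_monomial, Derivation.leibniz, Derivation.leibniz_pow,
      smul_eq_mul, nsmul_eq_mul]
    ring

theorem kill0 (D : Derivation k L L) {x : L} : ∀ (n : ℕ) (P : L[X]), P.natDegree = n → P ≠ 0 →
    (∀ i, D (P.coeff i) = 0) → P.eval x = 0 → D x = 0 := by
  have : CharZero L := charZero_of_injective_algebraMap (algebraMap k L).injective
  intro n
  induction n using Nat.strong_induction_on with
  | _ n ih =>
    intro P hn P0 hc hx
    have h := d_eval D P x
    rw [hx, map_zero, Polynomial.sum, Finset.sum_eq_zero (fun i _ => by rw [hc, zero_mul]),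
      zero_add, eq_comm, mul_eq_zero] at h
    refine h.elim (fun h => ?_) id
    by_cases hd : P.natDegree = 0
    · rw [eq_C_of_natDegree_eq_zero hd, eval_C] at hx
      rw [eq_C_of_natDegree_eq_zero hd, hx, C_0] at P0
      exact absurd rfl P0
    · refine ih _ (hn ▸ natDegree_derivative_lt hd) (derivative P) rfl
        (fun h0 => hd (natDegree_eq_zero_of_derivative_eq_zero h0)) (fun i => ?_) h
      rw [coeff_derivative, Derivation.leibniz, hc]
      have : D ((i : L) + 1) = 0 := by rw [map_add, D.map_natCast, D.map_one_eq_zero, add_zero]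
      simp [this]

/-- a derivation killing a subalgebra kills everything algebraic over it -/
theorem kill (D : Derivation k L L) (A : Subalgebra k L) (hA : ∀ a ∈ A, D a = 0) {x : L}
    (hx : IsAlgebraic A x) : D x = 0 := by
  obtain ⟨P, P0, hP⟩ := hx
  refine kill0 D _ (P.map (algebraMap A L)) rfl
    ((Polynomial.map_ne_zero_iff Subtype.val_injective).2 P0) (fun i => ?_) (by rwa [eval_map_algebraMap])
  rw [coeff_map]; exact hA _ (P.coeff i).2

theorem kill_adj (D : Derivation k L L) {s : Set L} (h : ∀ a ∈ s, D a = 0) :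
    ∀ a ∈ Algebra.adjoin k s, D a = 0 := by
  intro a ha
  induction ha using Algebra.adjoin_induction with
  | mem x hx => exact h x hx
  | algebraMap r => exact D.map_algebraMap r
  | add x y _ _ hx hy => rw [map_add, hx, hy, add_zero]
  | mul x y _ _ hx hy => simp [hx, hy]

/-- algebraic over `k[u]` -/
def Ac (k : Type) {L : Type} [Field k] [Field L] [Algebra k L] (u x : L) : Prop :=
  IsAlgebraic (Algebra.adjoin k {u}) x

/-- the relative algebraic closure of `k(u)` -/
noncomputable def fl (k : Type) {L : Type} [Field k] [Field L] [Algebra k L] (u : L) :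
    IntermediateField k L :=
  (algebraicClosure (IntermediateField.adjoin k {u}) L).restrictScalars k

theorem mem_fl {u x : L} : x ∈ fl k u ↔ Ac k u x := by
  rw [fl, IntermediateField.mem_restrictScalars, mem_algebraicClosure_iff,
    IntermediateField.isAlgebraic_adjoin_iff]
  rfl

theorem self_fl (u : L) : u ∈ fl k u :=
  mem_fl.2 (isAlgebraic_algebraMap (⟨u, Algebra.self_mem_adjoin_singleton k u⟩ :
    Algebra.adjoin k {u}))

theorem kill_fl (D : Derivation k L L) {u x : L} (hu : D u = 0) (hx : x ∈ fl k u) : D x = 0 :=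
  kill D _ (kill_adj D (by simpa using hu)) (mem_fl.1 hx)

/-- chain rule -/
theorem chain (δ D : Derivation k L L) {u x : L} (hu : δ u = 1) (hx : x ∈ fl k u) :
    D x = δ x * D u := by
  have := kill_fl (D - D u • δ) (u := u) (by simp [hu]) hx
  rw [Derivation.sub_apply, Derivation.smul_apply, smul_eq_mul, sub_eq_zero] at this
  rw [this, mul_comm]

theorem d_adj (δ : Derivation k L L) {u : L} (hu : δ u ∈ fl k u) :
    ∀ a ∈ Algebra.adjoin k {u}, a ∈ fl k u ∧ δ a ∈ fl k u := by
  intro a ha
  induction ha using Algebra.adjoin_induction with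
  | mem x hx => rw [Set.mem_singleton_iff.1 hx]; exact ⟨self_fl u, hu⟩
  | algebraMap r => rw [δ.map_algebraMap]; exact ⟨(fl k u).algebraMap_mem r, zero_mem _⟩
  | add x y _ _ hx hy => rw [map_add]; exact ⟨add_mem hx.1 hy.1, add_mem hx.2 hy.2⟩
  | mul x y _ _ hx hy =>
    rw [Derivation.leibniz]
    exact ⟨mul_mem hx.1 hy.1, add_mem (mul_mem hx.1 hy.2) (mul_mem hy.1 hx.2)⟩

theorem d_fl0 (δ : Derivation k L L) {u x : L} (hu : δ u ∈ fl k u) (hx : x ∈ fl k u) :
    ∀ (n : ℕ) (P : L[X]), P.natDegree = n → P ≠ 0 →
    (∀ i, P.coeff i ∈ fl k u ∧ δ (P.coeff i) ∈ fl k u) → P.eval x = 0 → δ x ∈ fl k u := by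
  have : CharZero L := charZero_of_injective_algebraMap (algebraMap k L).injective
  intro n
  induction n using Nat.strong_induction_on with
  | _ n ih =>
    intro P hn P0 hc hx0
    have hd : P.natDegree ≠ 0 := by
      intro hd
      rw [eq_C_of_natDegree_eq_zero hd, eval_C] at hx0
      rw [eq_C_of_natDegree_eq_zero hd, hx0, C_0] at P0
      exact absurd rfl P0
    have hn' : ∀ i : ℕ, ((i : L) + 1) ∈ fl k u := fun i => add_mem (natCast_mem _ _) (one_mem _)
    have hc' : ∀ i, (derivative P).coeff i ∈ fl k u ∧ δ ((derivative P).coeff i) ∈ fl k u := by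
      intro i
      have : δ ((i : L) + 1) = 0 := by rw [map_add, δ.map_natCast, δ.map_one_eq_zero, add_zero]
      rw [coeff_derivative, Derivation.leibniz, this, smul_zero, zero_add]
      exact ⟨mul_mem (hc _).1 (hn' i), mul_mem (hn' i) (hc _).2⟩
    by_cases h : (derivative P).eval x = 0
    · exact ih _ (hn ▸ natDegree_derivative_lt hd) (derivative P) rfl
        (fun h0 => hd (natDegree_eq_zero_of_derivative_eq_zero h0)) hc' h
    · have e := d_eval δ P x
      rw [hx0, map_zero] at e
      have : δ x = -(P.sum fun n a => δ a * x ^ n) / (derivative P).eval x := by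
        field_simp; linear_combination -e
      rw [this]
      refine div_mem (neg_mem (sum_mem fun i _ => mul_mem (hc i).2 (pow_mem hx _))) ?_
      rw [eval_eq_sum]
      exact sum_mem fun i _ => mul_mem (hc' i).1 (pow_mem hx _)

theorem d_fl (δ : Derivation k L L) {u x : L} (hu : δ u ∈ fl k u) (hx : x ∈ fl k u) :
    δ x ∈ fl k u := by
  obtain ⟨P, P0, hP⟩ := mem_fl.1 hx
  refine d_fl0 δ hu hx _ (P.map (algebraMap (Algebra.adjoin k {u}) L)) rfl
    ((Polynomial.map_ne_zero_iff Subtype.val_injective).2 P0) (fun i => ?_)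
    (by rwa [eval_map_algebraMap])
  rw [coeff_map]; exact d_adj δ hu _ (P.coeff i).2

/-- `d/du` -/
theorem ex_ddu (u : L) : ∃ δ : Derivation k L L, (Transcendental k u → δ u = 1) ∧
    ∀ x ∈ fl k u, δ x ∈ fl k u ∧ ∀ D : Derivation k L L, D x = δ x * D u := by
  by_cases h : Transcendental k u
  · obtain ⟨δ, hδ⟩ := der0 k L h
    exact ⟨δ, fun _ => hδ, fun x hx => ⟨d_fl δ (hδ ▸ one_mem _) hx, fun D => chain δ D hδ hx⟩⟩
  · refine ⟨0, fun h' => absurd h' h, fun x hx => ⟨zero_mem _, fun D => ?_⟩⟩
    have hu : D u = 0 := by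
      obtain ⟨P, P0, hP⟩ := not_not.1 h
      refine kill0 D _ (P.map (algebraMap k L)) rfl
        ((Polynomial.map_ne_zero_iff (algebraMap k L).injective).2 P0) (fun i => ?_)
        (by rwa [eval_map_algebraMap])
      rw [coeff_map]; exact D.map_algebraMap _
    rw [kill_fl D hu hx]; simp

/-- **ALG** -/
theorem alg {u x : L} (hx : IsAlgebraic (Algebra.adjoin k {u}) x) :
    ∃ x', IsAlgebraic (Algebra.adjoin k {u}) x' ∧ ∀ D : Derivation k L L, D x = x' * D u := by
  obtain ⟨δ, -, h⟩ := ex_ddu (k := k) u
  exact ⟨δ x, mem_fl.1 (h x (mem_fl.2 hx)).1, (h x (mem_fl.2 hx)).2⟩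

/-- constants -/
theorem const [IsAlgClosed k] {x : L} (h : ∀ D : Derivation k L L, D x = 0) :
    ∃ c : k, algebraMap k L c = x := by
  have : IsAlgebraic k x := by
    by_contra h'
    obtain ⟨D, hD⟩ := der0 k L h'
    exact one_ne_zero (hD.symm.trans (h D))
  exact minpoly.mem_range_of_degree_eq_one k x
    (IsAlgClosed.degree_eq_one_of_irreducible k (minpoly.irreducible this.isIntegral))

end Vale.Agent.P014Y.Nv.Der
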