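import Vale.Agent.P014Y.Nv.St
import Vale.Agent.P014Y.Nv.Der

/-! # P014Y, block NV: the row TOP (helper28) -/

set_option autoImplicit false
set_option linter.all false

open UpperHalfPlane Filter Polynomial Topology CongruenceSubgroup
open scoped MatrixGroups

noncomputable section

namespace Vale.Agent.P014Y.Nv

open Vale.Agent.P022 P027H P027M.M Vale.Agent.P022.H218.L3 Vale.Agent.P022.H231.L3
  Vale.Agent.P022.H236.L3
open P004Z.EF (Par Val)

namespace Tpk

/-- a relation which generates all relations, after clearing denominators -/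
theorem key {R M L : Type} [CommRing R] [IsDomain R] [CharZero R] [Field M] [Field L]
    (f : R →+* M) (g : R →+* L) (hf : Function.Injective f) (hg : Function.Injective g) {x : M}
    (hx : ∃ Φ : R[X], Φ ≠ 0 ∧ Φ.eval₂ f x = 0) : ∃ Φ : R[X], Φ ≠ 0 ∧ Φ.eval₂ f x = 0 ∧
      (derivative Φ).eval₂ f x ≠ 0 ∧
      ∀ y : L, Φ.eval₂ g y = 0 → ∀ Ψ : R[X], Ψ.eval₂ g y = 0 → Ψ.eval₂ f x = 0 := by
  letI := f.toAlgebra
  letI := g.toAlgebra
  haveI : FaithfulSMul R M := (faithfulSMul_iff_algebraMap_injective R M).2 hf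
  haveI : FaithfulSMul R L := (faithfulSMul_iff_algebraMap_injective R L).2 hg
  letI := FractionRing.liftAlgebra R M
  letI := FractionRing.liftAlgebra R L
  have hx' : IsAlgebraic R x := hx
  have hi : IsIntegral (FractionRing R) x :=
    ((IsFractionRing.isAlgebraic_iff R (FractionRing R) M).1 hx').isIntegral
  have ir := minpoly.irreducible hi
  obtain ⟨b, hb, e⟩ := IsLocalization.integerNormalization_spec (nonZeroDivisors R)
    (minpoly (FractionRing R) x)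
  set Φ := IsLocalization.integerNormalization (nonZeroDivisors R) (minpoly (FractionRing R) x)
  have b0 : b ≠ 0 := nonZeroDivisors.ne_zero hb
  have em : ∀ Ψ : R[X], Ψ.eval₂ f x = aeval x (Ψ.map (algebraMap R (FractionRing R))) :=
    fun Ψ => (aeval_map_algebraMap (FractionRing R) x Ψ).symm
  have el : ∀ (y : L) (Ψ : R[X]),
      Ψ.eval₂ g y = aeval y (Ψ.map (algebraMap R (FractionRing R))) :=
    fun y Ψ => (aeval_map_algebraMap (FractionRing R) y Ψ).symm
  rw [← IsScalarTower.algebraMap_smul (FractionRing R) b] at e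
  have b1 : algebraMap R (FractionRing R) b ≠ 0 :=
    (map_ne_zero_iff _ (IsFractionRing.injective R _)).2 b0
  refine ⟨Φ, fun z => ?_, ?_, ?_, fun y hy Ψ hΨ => ?_⟩
  · rw [z, Polynomial.map_zero] at e
    exact smul_ne_zero b1 ir.ne_zero e.symm
  · rw [em, e, map_smul, minpoly.aeval, smul_zero]
  · rw [em, ← derivative_map, e, derivative_smul, map_smul]
    exact smul_ne_zero b1 (ir.separable.aeval_derivative_ne_zero (minpoly.aeval _ _))
  · rw [el, e, map_smul] at hy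
    have h1 := (smul_eq_zero.1 hy).resolve_left b1
    have h2 := minpoly.eq_of_irreducible_of_monic ir h1 (minpoly.monic hi)
    rw [el] at hΨ
    obtain ⟨q, hq⟩ := minpoly.dvd _ _ hΨ
    rw [em, hq, ← h2, map_mul, minpoly.aeval, zero_mul]

/-- the value of a polynomial in two variables -/
def ev {A : Type} [CommRing A] [Algebra ℂ A] (u v : A) (Φ : ℂ[X][X]) : A :=
  Φ.eval₂ (aeval u : ℂ[X] →ₐ[ℂ] A).toRingHom v

section

variable {A B : Type} [CommRing A] [Algebra ℂ A] [CommRing B] [Algebra ℂ B]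

theorem ev_add (u v : A) (Φ Ψ : ℂ[X][X]) : ev u v (Φ + Ψ) = ev u v Φ + ev u v Ψ := eval₂_add _ _

theorem ev_mon (u v : A) (n : ℕ) (c : ℂ[X]) : ev u v (monomial n c) = aeval u c * v ^ n :=
  eval₂_monomial _ _

theorem ev_map (π : A →ₐ[ℂ] B) (u v : A) (Φ : ℂ[X][X]) : π (ev u v Φ) = ev (π u) (π v) Φ := by
  induction Φ using Polynomial.induction_on' with
  | add p q hp hq => rw [ev_add, ev_add, map_add, hp, hq]
  | monomial n c => rw [ev_mon, ev_mon, map_mul, map_pow, aeval_algHom_apply]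

theorem ev_mem (S : Subalgebra ℂ A) {u v : A} (hu : u ∈ S) (hv : v ∈ S) (Φ : ℂ[X][X]) :
    ev u v Φ ∈ S := by
  have := ev_map S.val ⟨u, hu⟩ ⟨v, hv⟩ Φ
  exact (show ev u v Φ = _ from this.symm) ▸ (ev (⟨u, hu⟩ : S) ⟨v, hv⟩ Φ).2

/-- the cubic -/
def cub (a b : ℂ) : ℂ[X][X] := monomial 3 (C 4) + (monomial 1 (C (-a)) + monomial 0 (C (-b)))

theorem ev_cub (u v a b : ℂ) : ev u v (cub a b) = 4 * v ^ 3 - a * v - b := by
  simp only [cub, ev_add, ev_mon, aeval_C, Algebra.algebraMap_self, RingHom.id_apply]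
  ring

end

theorem ev_pi (u v : ℕ → ℂ) (Φ : ℂ[X][X]) (n : ℕ) : ev u v Φ n = ev (u n) (v n) Φ :=
  ev_map (Pi.evalAlgHom ℂ (fun _ => ℂ) n) u v Φ

/-- the chain rule, for functions and for derivations -/
theorem chain (Φ : ℂ[X][X]) : ∃ Φ₁ : ℂ[X][X],
    (∀ (a b : ℂ → ℂ) (a' b' z : ℂ), HasDerivAt a a' z → HasDerivAt b b' z →
      HasDerivAt (fun s => ev (a s) (b s) Φ)
        (ev (a z) (b z) Φ₁ * a' + ev (a z) (b z) (derivative Φ) * b') z) ∧
    ∀ (L : Type) [Field L] [Algebra ℂ L] (D : Derivation ℂ L L) (u v : L),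
      D (ev u v Φ) = ev u v Φ₁ * D u + ev u v (derivative Φ) * D v := by
  induction Φ using Polynomial.induction_on' with
  | add p q hp hq =>
    obtain ⟨p₁, h1, h2⟩ := hp
    obtain ⟨q₁, k1, k2⟩ := hq
    refine ⟨p₁ + q₁, fun a b a' b' z ha hb => ?_, fun L _ _ D u v => ?_⟩
    · simp only [ev_add, derivative_add]
      exact ((h1 a b a' b' z ha hb).add (k1 a b a' b' z ha hb)).congr_deriv (by ring)
    · simp only [ev_add, derivative_add, map_add, h2, k2]
      ring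
  | monomial n c =>
    refine ⟨monomial n (derivative c), fun a b a' b' z ha hb => ?_, fun L _ _ D u v => ?_⟩
    · simp only [derivative_monomial, ev_mon, coe_aeval_eq_eval, eval_mul, eval_natCast]
      refine (((c.hasDerivAt (a z)).comp z ha).mul (hb.pow n)).congr_deriv ?_
      simp only [Function.comp_apply, Pi.pow_apply]
      ring
    · simp only [derivative_monomial, ev_mon, map_mul, map_natCast, Derivation.leibniz,
        Derivation.leibniz_pow, Derivation.map_aeval, smul_eq_mul, nsmul_eq_mul]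
      ring

/-! ### values -/

variable {τ : ℍ} {x y : Mer} {c d : ℂ}

theorem val_hol (f : Hol) (τ : ℍ) : Val τ (algebraMap Hol Mer f) ((f : ℍ → ℂ) τ) :=
  ⟨f, 1, one_ne_zero, by rw [map_one, mul_one], (mul_one _).symm⟩

theorem val_add (h : Val τ x c) (k : Val τ y d) : Val τ (x + y) (c + d) := by
  obtain ⟨g, h, h0, e, v⟩ := h
  obtain ⟨g', h', h0', e', v'⟩ := k
  refine ⟨g * h' + g' * h, h * h', mul_ne_zero h0 h0', ?_, ?_⟩
  · rw [map_add, map_mul, map_mul, map_mul, ← e, ← e']; ring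
  · show (g : ℍ → ℂ) τ * (h' : ℍ → ℂ) τ + (g' : ℍ → ℂ) τ * (h : ℍ → ℂ) τ =
      _ * ((h : ℍ → ℂ) τ * (h' : ℍ → ℂ) τ)
    rw [v, v']; ring

theorem val_mul (h : Val τ x c) (k : Val τ y d) : Val τ (x * y) (c * d) := by
  obtain ⟨g, h, h0, e, v⟩ := h
  obtain ⟨g', h', h0', e', v'⟩ := k
  refine ⟨g * g', h * h', mul_ne_zero h0 h0', ?_, ?_⟩
  · rw [map_mul, map_mul, ← e, ← e']; ring
  · show (g : ℍ → ℂ) τ * (g' : ℍ → ℂ) τ = _ * ((h : ℍ → ℂ) τ * (h' : ℍ → ℂ) τ)
    rw [v, v']; ring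

theorem val_pow (h : Val τ x c) (n : ℕ) : Val τ (x ^ n) (c ^ n) := by
  induction n with
  | zero => simpa using val_hol 1 τ
  | succ n ih => rw [pow_succ, pow_succ]; exact val_mul ih h

theorem val_zero (h : Val τ 0 c) : c = 0 := by
  obtain ⟨g, h, h0, e, v⟩ := h
  rw [zero_mul, eq_comm, IsFractionRing.to_map_eq_zero_iff] at e
  rw [e] at v
  exact (mul_eq_zero.1 v.symm).resolve_right h0

theorem val_ev (h : Val τ x c) (Φ : ℂ[X][X]) : Val τ (ev jM x Φ) (ev (jf τ) c Φ) := by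
  induction Φ using Polynomial.induction_on' with
  | add p q hp hq => rw [ev_add, ev_add]; exact val_add hp hq
  | monomial n a =>
    obtain ⟨k, e⟩ := aeval_jM a
    rw [ev_mon, ev_mon, e, coe_aeval_eq_eval]
    exact val_mul (val_hol ⟨_, k⟩ τ) (val_pow h n)

theorem val_pb {g : GL (Fin 2) ℝ} (hg : 0 < g.det.val) (h : Val (g • τ) x c) :
    Val τ (pb g hg x) c := by
  obtain ⟨a, b, h0, e, v⟩ := h
  exact ⟨pbH g hg a, pbH g hg b, h0, by rw [← pb_algebraMap, ← pb_algebraMap, ← map_mul, e], v⟩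

theorem jM_tr : Transcendental ℂ jM := fun h => by
  obtain ⟨c, hc⟩ := minpoly.mem_range_of_degree_eq_one ℂ jM
    (IsAlgClosed.degree_eq_one_of_irreducible ℂ (minpoly.irreducible h.isIntegral))
  exact jM_ne_const c hc.symm

theorem ex_rel (Γ : Subgroup SL(2, ℤ)) [Γ.FiniteIndex] (hx : x ∈ MF Γ) :
    ∃ Φ : ℂ[X][X], Φ ≠ 0 ∧ ev jM x Φ = 0 := by
  obtain ⟨P, m, -, e⟩ := exists_monic Γ hx
  have h : IsAlgebraic (MF ⊤) x := ⟨P, m.ne_zero, e⟩
  rw [MF_top, IntermediateField.isAlgebraic_adjoin_iff] at h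
  obtain ⟨p, p0, e⟩ := h
  let f : ℂ[X] →+* Algebra.adjoin ℂ {jM} :=
    (aeval (⟨jM, Algebra.self_mem_adjoin_singleton ℂ jM⟩ : Algebra.adjoin ℂ {jM})).toRingHom
  have hf : Function.Surjective f := fun ⟨x, hx⟩ => by
    rw [Algebra.adjoin_singleton_eq_range_aeval] at hx
    obtain ⟨q, rfl⟩ := hx
    exact ⟨q, Subtype.ext (aeval_algHom_apply (Algebra.adjoin ℂ {jM}).val _ q).symm⟩
  obtain ⟨P, rfl⟩ := map_surjective f hf p
  refine ⟨P, fun z => p0 (by simp [z]), ?_⟩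
  rw [aeval_def, eval₂_map] at e
  rw [← e, ev]
  congr 1
  refine ringHom_ext (fun a => ?_) ?_
  · simp [f]
  · simp [f]

theorem al_of {L : Type} [Field L] [Algebra ℂ L] {u v : L} (hu : Transcendental ℂ u)
    {Φ : ℂ[X][X]} (h0 : Φ ≠ 0) (e : ev u v Φ = 0) : Al u v := by
  let f : ℂ[X] →+* Algebra.adjoin ℂ {u} :=
    (aeval (⟨u, Algebra.self_mem_adjoin_singleton ℂ u⟩ : Algebra.adjoin ℂ {u})).toRingHom
  have c : (algebraMap (Algebra.adjoin ℂ {u}) L).comp f = (aeval u : ℂ[X] →ₐ[ℂ] L).toRingHom := by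
    refine ringHom_ext (fun a => ?_) ?_
    · simp [f]
    · simp [f]
  have hf : Function.Injective f := by
    refine Function.Injective.of_comp (f := algebraMap (Algebra.adjoin ℂ {u}) L) ?_
    rw [← RingHom.coe_comp, c]
    exact transcendental_iff_injective.1 hu
  exact ⟨Φ.map f, (Polynomial.map_ne_zero_iff hf).2 h0, by rw [aeval_def, eval₂_map, c]; exact e⟩

/-! ### analysis -/

theorem nb (τ : ℍ) : NeBot (𝓝[≠] τ) := by
  rw [← mem_closure_iff_nhdsWithin_neBot,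
    isOpenEmbedding_coe.isEmbedding.closure_eq_preimage_closure_image, Set.mem_preimage,
    mem_closure_iff_nhds]
  intro t ht
  obtain ⟨z, h1, h2⟩ := mem_closure_iff_nhds.1 (mem_closure_iff_nhdsWithin_neBot.2
    (inferInstance : NeBot (𝓝[≠] (τ : ℂ)))) _
    (inter_mem ht (isOpen_upperHalfPlaneSet.mem_nhds τ.im_pos))
  exact ⟨z, h1.1, ⟨z, h1.2⟩, fun e => h2 (congrArg (fun τ : ℍ => (τ : ℂ)) e), rfl⟩

theorem tend {G : ℍ → ℂ} (hG : G ∈ Hol) (nc : ∀ c, ∃ s, G s ≠ c) (τ : ℍ) :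
    Tendsto (fun s => G s - G τ) (𝓝[≠] τ) (𝓝[≠] 0) := by
  refine tendsto_nhdsWithin_iff.2 ⟨?_, ?_⟩
  · have := ((mem_Hol.1 hG).continuous.tendsto τ).sub_const (G τ)
    rw [sub_self] at this
    exact this.mono_left nhdsWithin_le_nhds
  · by_contra h
    have z := eq_zero_of_frequently (f := fun s => G s - G τ)
      (Hol.sub_mem hG (Hol.algebraMap_mem (G τ))) (τ := τ) fun k => h k
    obtain ⟨s, hs⟩ := nc (G τ)
    exact hs (sub_eq_zero.1 (congrFun z s))

variable {Λ : Submodule ℤ ℂ} {G : ℍ → ℂ}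

theorem not_half (hΛ : IsLat Λ) (hG : G ∈ Hol) (nc : ∀ c, ∃ s, G s ≠ c) :
    ¬ ∀ s, 2 * G s ∈ Λ := fun h => by
  have := nb I
  have t := tend (G := fun s => 2 * G s) (Hol.mul_mem (Hol.algebraMap_mem 2) hG)
    (fun c => (nc (c / 2)).imp fun s hs e => hs (by rw [← e]; ring)) I
  obtain ⟨s, hs⟩ := (t.eventually hΛ.notMem_zero).exists
  exact hs (sub_mem (h s) (h I))

theorem pole (hΛ : IsLat Λ) (hG : G ∈ Hol) (nc : ∀ c, ∃ s, G s ≠ c) {Φ : ℂ[X][X]}
    (h : ∀ s, G s ∉ Λ → ev (jf s) (wp Λ (G s)) Φ = 0) (hτ : G τ ∈ Λ) :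
    Φ.leadingCoeff.eval (jf τ) = 0 := by
  have := nb τ
  have t1 := tend hG nc τ
  have t2 := hΛ.tendsto_wp.comp t1
  have t3 := (t1.mono_right nhdsWithin_le_nhds).pow 2
  have t4 : Tendsto jf (𝓝[≠] τ) (𝓝 (jf τ)) :=
    ((mem_Hol.1 jf_mem).continuous.tendsto τ).mono_left nhdsWithin_le_nhds
  have t5 := tendsto_finset_sum (Finset.range (Φ.natDegree + 1)) fun i _ =>
    ((((Φ.coeff i).continuous.tendsto _).comp t4).mul (t2.pow i)).mul (t3.pow (Φ.natDegree - i))
  have e := tendsto_nhds_unique_of_eventuallyEq t5 (tendsto_const_nhds (x := (0 : ℂ))) (by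
    filter_upwards [t1.eventually hΛ.notMem_zero] with s hs
    have hs' : G s ∉ Λ := fun k => hs (sub_mem k hτ)
    have v := h s hs'
    rw [ev, eval₂_eq_sum_range] at v
    have w : wp Λ (G s - G τ) = wp Λ (G s) := hΛ.wp_congr (by simpa using hτ)
    rw [← mul_zero (((G s - G τ) ^ 2) ^ Φ.natDegree), ← v, Finset.mul_sum]
    refine Finset.sum_congr rfl fun i hi => ?_
    obtain ⟨k, hk⟩ := Nat.exists_eq_add_of_le (Nat.lt_succ_iff.1 (Finset.mem_range.1 hi))
    simp only [Function.comp_apply, w, hk, Nat.add_sub_cancel_left]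
    show _ = _ * ((Φ.coeff i).eval (jf s) * _)
    rw [mul_pow, pow_add]
    generalize (G s - G τ) ^ 2 = r
    ring)
  rw [Finset.sum_range_succ, Finset.sum_eq_zero, Nat.sub_self] at e
  · simpa using e
  · intro i hi
    rw [zero_pow two_ne_zero, zero_pow (Nat.sub_ne_zero_of_lt (Finset.mem_range.1 hi)), mul_zero]

theorem hd {f : ℍ → ℂ} (hf : f ∈ Hol) (τ : ℍ) : HasDerivAt (f ∘ ofComplex) (dd f τ) τ :=
  (mdifferentiableAt_iff.1 (mem_Hol.1 hf τ)).hasDerivAt

end Tpk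

open Tpk in
/-- **row `TOP`** -/
theorem top : TOP := by
  intro N a A B w Λ F x y hN h hF U L _ _ π up m τ τ' hm e tr
  haveI : NeZero (N * (!![(m : ℤ), 0; 0, 1] : Matrix (Fin 2) (Fin 2) ℤ).det.natAbs) :=
    ⟨mul_ne_zero hN.ne' (Int.natAbs_ne_zero.2 (diag_pos hm).ne')⟩
  have xm := (sPbM _ (diag_pos hm)).1 N hN x
    (MF_mono (fun γ k => Gamma0_mem.2 (Gamma_mem.1 k).2.2.1) h.xm)
  set g := gl !![(m : ℤ), 0; 0, 1] (diag_pos hm) with hg
  have gc : ∀ s : ℍ, ((g • s : ℍ) : ℂ) = m * s := dg_coe hm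
  have e' : ∀ n, τ' n = g • τ n := fun n => UpperHalfPlane.ext ((e n).trans (gc _).symm)
  have hG : (fun s => F (g • s)) ∈ Hol := comp_mem' g (gl_pos _ _) hF
  have nc : ∀ c, ∃ s, F (g • s) ≠ c := fun c => by
    by_contra! k
    obtain ⟨P, hP⟩ := h.lat
    obtain ⟨γ, -, hγ⟩ := (h.per _).1 (hP ▸ P.ω₁_mem_lattice)
    have c : ∀ s, F s = c := fun s => by simpa using k (g⁻¹ • s)
    exact one_ne_zero (LinearIndependent.pair_iff.1 P.indep 1 0 (by
      rw [← hγ I, c, c, sub_self, smul_zero, zero_smul, add_zero])).1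
  have pt : ∀ Ψ, ev jM (pbz _ (diag_pos hm) x) Ψ = 0 → ∀ s, F (g • s) ∉ Λ →
      ev (jf s) (wp Λ (F (g • s))) Ψ = 0 := fun Ψ k s hs =>
    val_zero (k ▸ val_ev (val_pb (gl_pos _ _) (h.xv _ hs)) Ψ)
  set u := π fun n => jf (τ n) with hu
  set P := π fun n => wp Λ (F (τ' n)) with hP
  set Q := π fun n => dwp Λ (F (τ' n)) with hQ
  obtain ⟨Φ, Φ0, k1, k2, k3⟩ := key (aeval jM : ℂ[X] →ₐ[ℂ] Mer).toRingHom
    (aeval u : ℂ[X] →ₐ[ℂ] L).toRingHom (transcendental_iff_injective.1 jM_tr)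
    (transcendental_iff_injective.1 tr) (ex_rel _ xm)
  have nm : ∀ᶠ n in (U : Filter ℕ), F (τ' n) ∉ Λ := by
    have l0 : aeval u Φ.leadingCoeff ≠ 0 := fun z => tr ⟨_, leadingCoeff_ne_zero.2 Φ0, z⟩
    rw [hu, aeval_algHom_apply, Ne, up, ← Ultrafilter.eventually_not] at l0
    filter_upwards [l0] with n hn k
    refine hn ?_
    rw [← pole h.lat hG nc (pt Φ k1) (e' n ▸ k), ← coe_aeval_eq_eval]
    exact (aeval_algHom_apply (Pi.evalAlgHom ℂ (fun _ => ℂ) n) _ _).symm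
  have r0 : ev u P Φ = 0 := by
    rw [hu, hP, ← ev_map, up]
    filter_upwards [nm] with n hn
    rw [ev_pi, e']
    exact pt Φ k1 _ (e' n ▸ hn)
  have r1 : ev u P (derivative Φ) ≠ 0 := fun z => k2 (k3 P r0 _ z)
  have r2 : Q ^ 2 = ev u P (cub (g2 Λ) (g3 Λ)) := by
    rw [hu, hP, hQ, ← ev_map, ← map_pow, ← sub_eq_zero, ← map_sub, up]
    filter_upwards [nm] with n hn
    rw [Pi.sub_apply, ev_pi, ev_cub, Pi.pow_apply, h.lat.ode hn, sub_self]
  have r3 : Q ≠ 0 := fun z => not_half h.lat hG nc fun s => by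
    by_cases hs : F (g • s) ∈ Λ
    · exact two_mul (F (g • s)) ▸ add_mem hs hs
    · have := pt _ (k3 P r0 (cub (g2 Λ) (g3 Λ)) (by
        rw [z, zero_pow two_ne_zero] at r2
        exact r2.symm)) s hs
      rw [ev_cub, ← h.lat.ode hs] at this
      exact (h.lat.dwp_eq_zero hs).1 (pow_eq_zero_iff two_ne_zero |>.1 this)
  obtain ⟨Φ₁, c1, c2⟩ := chain Φ
  have r4 : ev u P Φ₁ * π (fun n => dd jf (τ n)) +
      ev u P (derivative Φ) * (Q * (π (fun n => dd F (τ' n)) * m)) = 0 := by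
    rw [hu, hP, hQ, ← ev_map, ← ev_map, ← map_natCast π, ← map_mul, ← map_mul, ← map_mul,
      ← map_mul, ← map_add, up]
    filter_upwards [nm] with n hn
    have d1 : HasDerivAt (fun s : ℂ => (F ∘ ofComplex) (m * s)) (dd F (τ' n) * m) (τ n) := by
      have := hd hF (τ' n)
      rw [e] at this
      exact (this.comp (τ n : ℂ) ((hasDerivAt_id (τ n : ℂ)).const_mul (m : ℂ))).congr_deriv
        (by rw [mul_one])
    have v1 : (F ∘ ofComplex) (m * τ n) = F (τ' n) := by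
      rw [← e, Function.comp_apply, ofComplex_apply]
    have d2 := (h.lat.hasDerivAt_wp (z := (F ∘ ofComplex) (m * τ n)) (v1 ▸ hn)).comp (τ n : ℂ) d1
    have d3 := c1 _ _ _ _ _ (hd jf_mem (τ n)) d2
    have z : (fun s : ℂ => ev ((jf ∘ ofComplex) s)
        ((wp Λ ∘ fun s : ℂ => (F ∘ ofComplex) (m * s)) s) Φ) =ᶠ[𝓝 (τ n : ℂ)] fun _ => 0 := by
      filter_upwards [isOpen_upperHalfPlaneSet.mem_nhds (τ n).im_pos,
        d1.continuousAt.eventually (h.lat.notMem_nhds (z := (F ∘ ofComplex) (m * τ n))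
          (v1 ▸ hn))] with s h1 h2
      have q : ofComplex (m * s) = g • ofComplex s := by
        rw [← ofComplex_apply (g • ofComplex s), gc, ofComplex_apply_of_im_pos h1]
      simp only [Function.comp_apply, q] at h2 ⊢
      exact pt Φ k1 _ h2
    have := (d3.congr_of_eventuallyEq z.symm).unique (hasDerivAt_const _ _)
    simp only [Function.comp_apply, ofComplex_apply, ← e] at this
    simpa only [Pi.add_apply, Pi.mul_apply, ev_pi, Pi.natCast_apply] using this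
  have mP : P ∈ Der.fl ℂ u := Der.mem_fl.2 (al_of tr Φ0 r0)
  have mE : ∀ Ψ, ev u P Ψ ∈ Der.fl ℂ u := ev_mem (Der.fl ℂ u).toSubalgebra (Der.self_fl u) mP
  have mQ : Q ∈ Der.fl ℂ u :=
    Der.mem_fl.2 (IsAlgebraic.of_pow two_pos (r2 ▸ Der.mem_fl.1 (mE _)))
  refine ⟨nm, -ev u P Φ₁ / (ev u P (derivative Φ) * Q),
    Der.mem_fl.1 (div_mem (neg_mem (mE _)) (mul_mem (mE _) mQ)), ?_, fun D l hl => ?_⟩
  · field_simp
    linear_combination -r4
  · have := c2 L D u P
    rw [r0, map_zero, hl] at this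
    field_simp
    linear_combination -this

end Vale.Agent.P014Y.Nv
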