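import Vale.Agent.P014Y.Nv.St
import Vale.Agent.P014U.X4M.TE.Red
import Vale.Agent.P004M.TE.Tate
import Vale.Agent.P022D.G.Frob
import Vale.Agent.P022.H20.Gal

/-! # P014Y, block NV: the row TOR -/

set_option autoImplicit false
set_option linter.all false

open NumberField Polynomial
open scoped Classical

noncomputable section

namespace Vale.Agent.P014Y.Nv

open Vale.Agent.P022 Vale.Agent.P004K P027M.M
open P004M.TE (Pt ga Cv Fb pa_some ga_mul)

namespace Tor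

theorem fin {k κ : Type} [Field k] [Fintype k] [Field κ] [Algebra k κ] (a b : k) :
    ∃ N : ℕ, 0 < N ∧ ∀ Q : (Cv κ a b).Point, Fb (Fb (Fb (Fb Q))) = Q → N • Q = 0 := by
  let F : (Cv κ a b).Point →+ (Cv κ a b).Point := Fb.comp (Fb.comp (Fb.comp Fb)) - AddMonoidHom.id _
  have q : 1 < Fintype.card k ^ 4 := Nat.one_lt_pow (by norm_num) Fintype.one_lt_card
  have h0 : (X ^ Fintype.card k ^ 4 - X : κ[X]) ≠ 0 := FiniteField.X_pow_card_sub_X_ne_zero κ q
  have hs : {x : κ | x ^ Fintype.card k ^ 4 = x}.Finite :=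
    (finite_setOf_isRoot h0).subset fun x hx => by simpa [sub_eq_zero] using hx
  let c : (Cv κ a b).Point → Option (κ × κ) := fun Q =>
    match Q with
    | .zero => none
    | .some x y _ => some (x, y)
  have ci : Function.Injective c := by
    rintro (_ | ⟨x, y, h⟩) (_ | ⟨x', y', h'⟩) e <;> simp only [c, reduceCtorEq] at e
    · rfl
    · obtain ⟨rfl, rfl⟩ := Prod.mk.inj (Option.some.inj e)
      rfl
  have : Finite F.ker := by
    refine Set.Finite.of_finite_image (f := c) (((hs.prod hs).image some).insert none |>.subset ?_)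
      ci.injOn
    rintro _ ⟨_ | ⟨x, y, h⟩, e, rfl⟩
    · exact Or.inl rfl
    · have e' : Fb (Fb (Fb (Fb (.some x y h)))) = .some x y h := sub_eq_zero.1 e
      simp only [Fb, pa_some, FiniteField.coe_frobeniusAlgHom,
        WeierstrassCurve.Affine.Point.some.injEq, ← pow_mul] at e'
      refine Or.inr ⟨(x, y), ⟨?_, ?_⟩, rfl⟩
      · simpa [pow_succ] using e'.1
      · simpa [pow_succ] using e'.2
  refine ⟨Nat.card F.ker, Nat.card_pos, fun Q h => ?_⟩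
  exact congrArg Subtype.val (card_nsmul_eq_zero' (x := (⟨Q, sub_eq_zero.2 h⟩ : F.ker)))

variable {K : Type} [Field K] [NumberField K] {j : K →+* Qb}

theorem out (h : Iq K) : ∃ g, g ∉ GK j := by
  obtain ⟨g, e⟩ := ex_g starRingAut
  refine ⟨g, fun m => h.im.false (ComplexEmbedding.IsReal.embedding (φ := (io : Qb →+* ℂ).comp j)
    (ComplexEmbedding.isReal_iff.2 (RingHom.ext fun x => (e (j x)).trans (congrArg io (m x)))))⟩

theorem one (r1 : P004K.RC1) (h : Iq K) {A B : ℤ} (hD : 4 * A ^ 3 + 27 * B ^ 2 ≠ 0) (S : Finset ℕ) :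
    ∃ l N : ℕ, l.Prime ∧ l ∉ S ∧ 0 < N ∧ ∀ c (y : Pt A B), 0 < c →
      (∀ g ∈ Hc j c, ga g y = y) → IsOfFinAddOrder y → ∃ a, (l ^ a * N) • y = 0 := by
  obtain ⟨g, hg⟩ := out (j := j) h
  obtain ⟨-, o, n, -⟩ := r1 K j h 1 one_pos
  obtain ⟨l, φ, k, lp, lS, ⟨P, p1, p2, p3⟩, e⟩ := P022D.G.frob _ n o g
    (S ∪ (2 * (4 * A ^ 3 + 27 * B ^ 2)).natAbs.primeFactors)
  rw [Finset.mem_union, not_or] at lS
  have hφ : φ ∉ GK j := fun m => hg (by simpa using mul_mem (pow_mem m k) (inv_mem e.1))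
  haveI := Fact.mk lp
  obtain ⟨κ, _, _, _, rd, a, -, b⟩ := P014U.X4M.TE.exists_rdn (A := A) (B := B) (l := l)
    (fun d => lS.2 (Nat.mem_primeFactors.2 ⟨lp, Int.natCast_dvd.1 d,
      Int.natAbs_ne_zero.2 (mul_ne_zero two_ne_zero hD)⟩)) p1 p2
  obtain ⟨N, N0, hN⟩ := fin (κ := κ) (A : ZMod l) (B : ZMod l)
  refine ⟨l, N, lp, lS.1, N0, fun c y c0 hy t => ?_⟩
  have m := hy _ ((r1 K j h c c0).2.2.2.2.1 φ hφ _ (H20.mul_mem' h.two hφ hφ))
  rw [show φ * (φ * φ) * φ⁻¹ * (φ * φ) = φ * (φ * (φ * φ)) by group, ga_mul, ga_mul, ga_mul] at m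
  have z := hN (rd y) (by rw [← b φ p3, ← b φ p3, ← b φ p3, ← b φ p3, m])
  obtain ⟨n, n0, hn⟩ := isOfFinAddOrder_iff_nsmul_eq_zero.1 t
  obtain ⟨e, n', d, rfl⟩ := Nat.exists_eq_pow_mul_and_not_dvd n0.ne' l lp.ne_one
  refine ⟨e, a n' _ d ?_ ?_⟩
  · rw [← mul_nsmul, mul_right_comm, mul_nsmul, hn, nsmul_zero]
  · rw [map_nsmul, mul_comm, mul_nsmul, z, nsmul_zero]

end Tor

theorem tor (r1 : P004K.RC1) : TOR := fun K _ _ j h A B p hD hp => by
  obtain ⟨l, N, lp, -, N0, a⟩ := Tor.one (j := j) r1 h hD ∅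
  obtain ⟨l', N', lp', d, N0', a'⟩ := Tor.one (j := j) r1 h hD {l}
  refine ⟨N * N', mul_pos N0 N0', fun n y hy t => ?_⟩
  obtain ⟨e, b⟩ := a _ y (pow_pos hp n) hy t
  obtain ⟨e', b'⟩ := a' _ y (pow_pos hp n) hy t
  rw [← addOrderOf_dvd_iff_nsmul_eq_zero] at b b' ⊢
  have c : (l ^ e).Coprime (l' ^ e') := Nat.Coprime.pow _ _
    ((Nat.coprime_primes lp lp').2 fun q => d (by simp [q]))
  have := Nat.dvd_gcd (b.mul_right N') (b'.mul_right N)
  rwa [mul_assoc, mul_assoc, mul_comm N' N, Nat.gcd_mul_right, c.gcd_eq_one, one_mul] at this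

end Vale.Agent.P014Y.Nv
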