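import Vale.Agent.P014Y.Nv.Der

/-! Abelian relations of a web span a finite dimensional space. -/

set_option linter.all false

namespace Vale.Agent.P014Y.Nv.Web

open Der Submodule

variable {k L : Type} [Field k] [Field L] [Algebra k L] [CharZero k] {I : Type}

/-- pointwise action -/
def dd (D : Derivation k L L) (v : I → L) : I → L := fun i => D (v i)

theorem dd_add (D : Derivation k L L) (v w : I → L) : dd D (v + w) = dd D v + dd D w := by
  funext i; simp [dd]

theorem dd_smul (D : Derivation k L L) (c : L) (v : I → L) :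
    dd D (c • v) = c • dd D v + D c • v := by
  funext i; simp [dd]; ring

theorem dd_zero (D : Derivation k L L) : dd D (0 : I → L) = 0 := by
  funext i; simp [dd]

theorem dd_span (D : Derivation k L L) {s : Set (I → L)} {W : Submodule L (I → L)}
    (hs : span L s ≤ W) (h : ∀ v ∈ s, dd D v ∈ W) : ∀ v ∈ span L s, dd D v ∈ W := by
  intro v hv
  induction hv using Submodule.span_induction with
  | mem x hx => exact h x hx
  | zero => rw [dd_zero]; exact zero_mem _
  | add x y _ _ hx hy => rw [dd_add]; exact add_mem hx hy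
  | smul c x hx h' => rw [dd_smul]; exact add_mem (smul_mem _ _ h') (smul_mem _ _ (hs hx))

/-- the span of the first `n` -/
def lo (e : ℕ → I → L) (n : ℕ) : Submodule L (I → L) := span L (e '' {j | j < n})

theorem lo_mono (e : ℕ → I → L) {n m : ℕ} (h : n ≤ m) : lo e n ≤ lo e m :=
  span_mono (Set.image_mono fun _ hj => lt_of_lt_of_le hj h)

theorem mem_lo (e : ℕ → I → L) {j n : ℕ} (h : j < n) : e j ∈ lo e n := subset_span ⟨j, h, rfl⟩

/-- a differential operator with non zero leading coefficient -/
def Od (e : ℕ → I → L) (v : I → L) : Prop := ∃ (n : ℕ) (α : L), α ≠ 0 ∧ v - α • e n ∈ lo e n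

theorem Od.smul {e : ℕ → I → L} {v : I → L} (h : Od e v) {c : L} (hc : c ≠ 0) : Od e (c • v) := by
  obtain ⟨n, α, h0, h⟩ := h
  refine ⟨n, c * α, mul_ne_zero hc h0, ?_⟩
  rw [mul_smul, ← smul_sub]; exact smul_mem _ _ h

theorem Od.d {e : ℕ → I → L} {v : I → L} (h : Od e v) (D : Derivation k L L)
    (he : ∀ j, dd D (e j) = e (j + 1)) : Od e (dd D v) := by
  obtain ⟨n, α, h0, h⟩ := h
  refine ⟨n + 1, α, h0, ?_⟩
  have e1 : dd D v - α • e (n + 1) = dd D (v - α • e n) + D α • e n := by
    have : v = (v - α • e n) + α • e n := by abel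
    conv_lhs => rw [this, dd_add, dd_smul, he]
    abel
  rw [e1]
  refine add_mem (dd_span D (lo_mono e n.le_succ) ?_ _ h) (smul_mem _ _ (mem_lo e n.lt_succ_self))
  rintro _ ⟨j, hj, rfl⟩
  rw [he]; exact mem_lo e (Nat.succ_lt_succ hj)

theorem elim {e : ℕ → I → L} (D : Derivation k L L) (he : ∀ j, dd D (e j) = e (j + 1))
    (H : Submodule L (I → L)) (hH : ∀ v ∈ H, dd D v ∈ H) (t : Finset (I → L)) :
    (∀ w ∈ t, dd D w = 0) → ∀ v, Od e v → v ∈ span L (t : Set (I → L)) ⊔ H →
      ∃ v', Od e v' ∧ v' ∈ H := by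
  classical
  induction t using Finset.induction_on with
  | empty => intro _ v hv h; exact ⟨v, hv, by simpa using h⟩
  | insert w t _ ih =>
    intro h0 v hv h
    have h1 : ∀ w ∈ t, dd D w = 0 := fun x hx => h0 x (Finset.mem_insert_of_mem hx)
    rw [Finset.coe_insert, span_insert, sup_assoc, mem_sup] at h
    obtain ⟨y, hy, z, hz, rfl⟩ := h
    obtain ⟨c, rfl⟩ := mem_span_singleton.1 hy
    by_cases hc : c = 0
    · rw [hc, zero_smul, zero_add] at hv
      exact ih h1 z hv hz
    · refine ih h1 _ ((hv.smul (inv_ne_zero hc)).d D he) ?_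
      rw [smul_add, smul_smul, inv_mul_cancel₀ hc, one_smul, dd_add,
        h0 w (Finset.mem_insert_self _ _), zero_add]
      obtain ⟨a, ha, b, hb, hab⟩ := mem_sup.1 (smul_mem _ c⁻¹ hz)
      rw [← hab, dd_add]
      exact add_mem (dd_span D le_sup_left (fun x hx => by rw [h1 x hx]; exact zero_mem _) a ha)
        (mem_sup_right (hH b hb))

theorem elim' {e : ℕ → I → L} (D : Derivation k L L) (he : ∀ j, dd D (e j) = e (j + 1))
    (H : Submodule L (I → L)) (hH : ∀ v ∈ H, dd D v ∈ H) (s : Set (I → L))
    (hs : ∀ w ∈ s, dd D w = 0) (v) (hv : Od e v) (h : v ∈ span L s ⊔ H) :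
    ∃ v', Od e v' ∧ v' ∈ H := by
  obtain ⟨a, ha, b, hb, rfl⟩ := mem_sup.1 h
  obtain ⟨t, ht, ha⟩ := mem_span_finite_of_mem_span ha
  exact elim D he H hH t (fun w hw => hs w (ht hw)) _ hv (add_mem (mem_sup_left ha) (mem_sup_right hb))

/-- linear disjointness from the constants -/
theorem disj (δ : Derivation k L L) (F : IntermediateField k L) (hF : ∀ x ∈ F, δ x ∈ F)
    (hc : ∀ x ∈ F, δ x = 0 → ∃ c : k, algebraMap k L c = x) (φ : I → L)
    (hφ : LinearIndependent k φ) (s : Finset I) : ∀ c : I → L, (∀ i, c i ∈ F) →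
      (∀ m, ∑ i ∈ s, c i * δ^[m] (φ i) = 0) → ∀ i ∈ s, c i = 0 := by
  classical
  induction s using Finset.induction_on with
  | empty => intro _ _ _ i hi; simp at hi
  | insert a s ha ih =>
    intro c hcF h
    by_cases h0 : c a = 0
    · have := ih c hcF fun m => by simpa [Finset.sum_insert ha, h0] using h m
      intro i hi
      rcases Finset.mem_insert.1 hi with rfl | hi
      · exact h0
      · exact this i hi
    · exfalso
      have h1 : ∀ m, ∑ i ∈ insert a s, c i / c a * δ^[m] (φ i) = 0 := by
        intro m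
        have := congrArg (· / c a) (h m)
        simp only [Finset.sum_div, zero_div] at this
        rw [← this]
        exact Finset.sum_congr rfl fun i _ => by ring
      have h2 := ih (fun i => δ (c i / c a)) (fun i => hF _ (div_mem (hcF i) (hcF a))) fun m => by
        have e1 := congrArg δ (h1 m)
        have e2 := h1 (m + 1)
        rw [map_sum, map_zero] at e1
        simp only [Derivation.leibniz, smul_eq_mul, Finset.sum_add_distrib,
          ← Function.iterate_succ_apply' δ] at e1
        rw [e2, zero_add, Finset.sum_insert ha, div_self h0, δ.map_one_eq_zero, mul_zero,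
          zero_add] at e1
        rw [← e1]
        exact Finset.sum_congr rfl fun i _ => by ring
      have h3 : ∀ i, ∃ γ : k, i ∈ insert a s → algebraMap k L γ = c i / c a := by
        intro i
        by_cases hi : i ∈ s
        · obtain ⟨γ, hγ⟩ := hc _ (div_mem (hcF i) (hcF a)) (h2 i hi)
          exact ⟨γ, fun _ => hγ⟩
        · refine ⟨1, fun h' => ?_⟩
          rw [(Finset.mem_insert.1 h').resolve_right hi, div_self h0, map_one]
      choose γ hγ using h3
      have h4 := linearIndependent_iff'.1 hφ (insert a s) γ (by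
        rw [← h1 0]
        exact Finset.sum_congr rfl fun i hi => by rw [Algebra.smul_def, hγ i hi]; rfl) a
        (Finset.mem_insert_self _ _)
      have := hγ a (Finset.mem_insert_self _ _)
      rw [h4, map_zero, div_self h0] at this
      exact zero_ne_one this

/-- **WRO**: the solutions in `F` of a linear differential equation over `L` -/
theorem wro [Infinite I] (δ : Derivation k L L) (F : IntermediateField k L) (hF : ∀ x ∈ F, δ x ∈ F)
    (hc : ∀ x ∈ F, δ x = 0 → ∃ c : k, algebraMap k L c = x) (φ : I → L) (hφ : ∀ i, φ i ∈ F)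
    (h : Od (fun j i => δ^[j] (φ i)) 0) : ¬ LinearIndependent k φ := by
  classical
  intro li
  obtain ⟨n, α, h0, h⟩ := h
  set e : ℕ → I → L := fun j i => δ^[j] (φ i) with he
  have hd : ∀ j, dd δ (e j) = e (j + 1) := fun j => by
    funext i; simp only [dd, he, Function.iterate_succ_apply']
  have hn : e n ∈ lo e n := by
    have := smul_mem _ (-α⁻¹) h
    rwa [zero_sub, neg_smul, smul_neg, neg_neg, smul_smul, inv_mul_cancel₀ h0, one_smul] at this
  have hst : ∀ v ∈ lo e n, dd δ v ∈ lo e n := dd_span δ le_rfl (by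
    rintro _ ⟨j, hj, rfl⟩
    rw [hd]
    rcases Nat.lt_or_eq_of_le (Nat.succ_le_of_lt hj) with h' | h'
    · exact mem_lo e h'
    · rw [show j + 1 = n from h']; exact hn)
  have hall : ∀ m, e m ∈ lo e n := by
    intro m
    rcases Nat.lt_or_ge m n with h' | h'
    · exact mem_lo e h'
    · induction m, h' using Nat.le_induction with
      | base => exact hn
      | succ m _ ih => rw [← hd]; exact hst _ ih
  have hit : ∀ j i, e j i ∈ F := by
    intro j i
    induction j with
    | zero => exact hφ i
    | succ j ih => rw [← hd]; exact hF _ ih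
  obtain ⟨s, hs⟩ := Infinite.exists_subset_card_eq I (n + 1)
  have nl : ¬ LinearIndependent F fun (i : s) (j : Fin n) => (⟨e j i, hit j i⟩ : F) := by
    intro h'
    have := h'.fintype_card_le_finrank
    simp [hs] at this
  rw [Fintype.not_linearIndependent_iff] at nl
  obtain ⟨g, hg, i0, hi0⟩ := nl
  let c : I → L := fun i => if h : i ∈ s then (g ⟨i, h⟩ : L) else 0
  have hcF : ∀ i, c i ∈ F := fun i => by
    simp only [c]; split_ifs
    · exact (g _).2
    · exact zero_mem _
  have hv : ∀ v ∈ lo e n, ∑ i ∈ s, c i * v i = 0 := by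
    intro v hv
    induction hv using Submodule.span_induction with
    | mem x hx =>
      obtain ⟨j, hj, rfl⟩ := hx
      have := congrArg (fun x : F => (x : L)) (congrFun hg ⟨j, hj⟩)
      simp only [Finset.sum_apply, Pi.smul_apply, smul_eq_mul, Pi.zero_apply] at this
      push_cast at this
      rw [← this, ← Finset.sum_coe_sort s]
      exact Finset.sum_congr rfl fun i _ => by simp [c]
    | zero => simp
    | add x y _ _ hx hy => simp [mul_add, Finset.sum_add_distrib, hx, hy]
    | smul a x _ hx =>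
      have : ∑ i ∈ s, c i * (a • x) i = a * ∑ i ∈ s, c i * x i := by
        rw [Finset.mul_sum]; exact Finset.sum_congr rfl fun i _ => by simp; ring
      rw [this, hx, mul_zero]
  have := disj δ F hF hc φ li s c hcF (fun m => hv _ (hall m)) i0 i0.2
  simp only [c, dif_pos i0.2] at this
  exact hi0 (Subtype.ext this)

/-- **WEB** -/
theorem web [IsAlgClosed k] [Infinite I] {A : Type} (s : Finset A) (u₀ : L) (u : A → L)
    (h0 : Transcendental k u₀) (hu : ∀ a ∈ s, Transcendental (Algebra.adjoin k {u a}) u₀)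
    (φ₀ : I → L) (φ : A → I → L) (a0 : ∀ i, IsAlgebraic (Algebra.adjoin k {u₀}) (φ₀ i))
    (ha : ∀ a ∈ s, ∀ i, IsAlgebraic (Algebra.adjoin k {u a}) (φ a i))
    (h : ∀ (D : Derivation k L L) i, φ₀ i * D u₀ + ∑ a ∈ s, φ a i * D (u a) = 0) :
    ¬ LinearIndependent k φ₀ := by
  classical
  choose δ hδ hδ' using ex_ddu (k := k) (L := L)
  have hit : ∀ (w x : L), x ∈ fl k w → ∀ j, (δ w)^[j] x ∈ fl k w := by
    intro w x hx j
    induction j with
    | zero => exact hx
    | succ j ih => rw [Function.iterate_succ_apply']; exact (hδ' w _ ih).1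
  let e : ℕ → I → L := fun j i => (δ u₀)^[j] (φ₀ i)
  let f : A → ℕ → I → L := fun a j i => (δ (u a))^[j] (φ a i)
  have hf : ∀ a ∈ s, ∀ (D : Derivation k L L) j, dd D (f a j) = D (u a) • f a (j + 1) := by
    intro a h D j
    funext i
    simp only [dd, f, Pi.smul_apply, smul_eq_mul, Function.iterate_succ_apply']
    rw [(hδ' _ _ (hit _ _ (mem_fl.2 (ha a h i)) j)).2 D, mul_comm]
  let W : Finset A → Submodule L (I → L) := fun t => span L {w | ∃ a ∈ t, ∃ j, w = f a j}
  have key : ∀ t : Finset A, t ⊆ s → (∃ v, Od e v ∧ v ∈ W t) → Od e 0 := by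
    intro t
    induction t using Finset.induction_on with
    | empty =>
      rintro _ ⟨v, hv, h⟩
      have : v = 0 := by simpa [W] using h
      exact this ▸ hv
    | insert a t _ ih =>
      rintro hs ⟨v, hv, h⟩
      have has : a ∈ s := hs (Finset.mem_insert_self _ _)
      have hts : t ⊆ s := (Finset.subset_insert _ _).trans hs
      obtain ⟨D, hD, hD1⟩ := der _ (hu a has)
      refine ih hts (elim' D (fun j => ?_) (W t) (dd_span D le_rfl ?_) (Set.range (f a)) ?_ v hv ?_)
      · funext i
        simp only [dd, e, Function.iterate_succ_apply']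
        rw [(hδ' _ _ (hit _ _ (mem_fl.2 (a0 i)) j)).2 D, hD1, mul_one]
      · rintro _ ⟨b, hb, j, rfl⟩
        rw [hf b (hts hb)]
        exact smul_mem _ _ (subset_span ⟨b, hb, j + 1, rfl⟩)
      · rintro _ ⟨j, rfl⟩
        rw [hf a has, hD _ (Algebra.self_mem_adjoin_singleton k _), zero_smul]
      · refine (span_le.2 ?_ : W (insert a t) ≤ _) h
        rintro _ ⟨b, hb, j, rfl⟩
        rcases Finset.mem_insert.1 hb with rfl | hb
        · exact mem_sup_left (subset_span ⟨j, rfl⟩)
        · exact mem_sup_right (subset_span ⟨b, hb, j, rfl⟩)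
  refine wro (δ u₀) (fl k u₀) (fun x hx => (hδ' _ x hx).1) (fun x hx h' => const fun D => ?_) φ₀
    (fun i => mem_fl.2 (a0 i)) (key s subset_rfl ⟨e 0, ⟨0, 1, one_ne_zero, by simp⟩, ?_⟩)
  · rw [(hδ' _ x hx).2 D, h', zero_mul]
  · have : e 0 = -∑ a ∈ s, δ u₀ (u a) • f a 0 := by
      funext i
      have := h (δ u₀) i
      rw [hδ _ h0, mul_one] at this
      simp only [e, f, Function.iterate_zero, id, Pi.neg_apply, Finset.sum_apply, Pi.smul_apply,
        smul_eq_mul]
      rw [eq_neg_iff_add_eq_zero, ← this]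
      congr 1
      exact Finset.sum_congr rfl fun a _ => mul_comm _ _
    rw [this]
    exact neg_mem (sum_mem fun a ha => smul_mem _ _ (subset_span ⟨a, ha, 0, rfl⟩))

end Vale.Agent.P014Y.Nv.Web
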