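import Vale.Agent.P014Y.Nv.St
import Vale.Agent.P014Y.Nv.Web

/-! The rows DER, ALG, WEB. -/

set_option linter.all false

namespace Vale.Agent.P014Y.Nv

theorem der : DER := fun L _ _ t => ⟨fun h => Der.der0 ℂ L h, fun u h =>
  let ⟨D, h1, h2⟩ := Der.der (Algebra.adjoin ℂ {u}) (t := t) h
  ⟨D, h1 _ (Algebra.self_mem_adjoin_singleton ℂ u), h2⟩⟩

theorem alg : ALG := fun _ _ _ _ _ h => Der.alg h

theorem web : WEB := fun _ _ _ _ _ u₀ u φ₀ φ h0 hu a0 ha h =>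
  Web.web Finset.univ u₀ u h0 (fun a _ => hu a) φ₀ φ a0 (fun a _ => ha a) h

end Vale.Agent.P014Y.Nv
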