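import Vale.Agent.P014Y.Nv.Glue
import Vale.Agent.P014Y.Nv.Wb
import Vale.Agent.P014Y.Nv.Lam
import Vale.Agent.P014Y.Nv.Top
import Vale.Agent.P014Y.Nv.Asy
import Vale.Agent.P014Y.Nv.And
import Vale.Agent.P014Y.Nv.Cma
import Vale.Agent.P014Y.Nv.Idl
import Vale.Agent.P014Y.Nv.Pair
import Vale.Agent.P014Y.Nv.Pts
import Vale.Agent.P014Y.Nv.Rat
import Vale.Agent.P014Y.Nv.Tor
import Vale.Agent.P004K.Rc.All

/-! # P014Y, block NV: all rows -/

namespace Vale.Agent.P014Y.Nv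

open Vale.Agent.P004K

/-- **Heegner points of conductor `p ^ n` are not torsion** -/
theorem nv_all : NV := nv ult der web lam top asy (pair x_rc2 jh rat and_ cma idl) idl
  (pts jh x_rc1) (tra Rc.iq jh x_rc1) (tor x_rc1) jh x_rc1 x_rc2

end Vale.Agent.P014Y.Nv
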