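import Vale.Agent.P004K.Hg.At

/-! # P014Y, block NV: Heegner points of conductor `p ^ n` are not torsion (words and rows) -/

set_option autoImplicit false
set_option linter.all false

open UpperHalfPlane NumberField Filter Polynomial
open scoped Classical

noncomputable section

namespace Vale.Agent.P014Y.Nv

open Vale.Agent.P022 Vale.Agent.P004K P027H P027M.M Vale.Agent.P022.H218.L3
open Vale.Agent.P004K.Hg (Bs)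
open P004Z.EF (Par)
open P004M.TE (Pt ga)

/-- `π` maps into an ultrapower -/
def Up (U : Ultrafilter ℕ) {L : Type} [Field L] [Algebra ℂ L] (π : (ℕ → ℂ) →ₐ[ℂ] L) : Prop :=
  ∀ z, π z = 0 ↔ ∀ᶠ n in (U : Filter ℕ), z n = 0

/-- `x` is algebraic over `ℂ[u]` -/
def Al {L : Type} [Field L] [Algebra ℂ L] (u x : L) : Prop :=
  IsAlgebraic (Algebra.adjoin ℂ {u}) x

/-- the derivative -/
def dd (f : ℍ → ℂ) (τ : ℍ) : ℂ := deriv (f ∘ ofComplex) τ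

/-- multiplication by `x` -/
def Cm (x : ℂ) (τ : ℍ) : Prop := ∀ z ∈ lat τ, x * z ∈ lat τ

/-! ### algebra -/

def ULT : Prop := ∀ U : Ultrafilter ℕ,
  ∃ (L : Type) (_ : Field L) (_ : Algebra ℂ L) (π : (ℕ → ℂ) →ₐ[ℂ] L), Up U π

def DER : Prop := ∀ (L : Type) [Field L] [Algebra ℂ L] (t : L),
  (Transcendental ℂ t → ∃ D : Derivation ℂ L L, D t = 1) ∧
    ∀ u, ¬ Al u t → ∃ D : Derivation ℂ L L, D u = 0 ∧ D t = 1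

def ALG : Prop := ∀ (L : Type) [Field L] [Algebra ℂ L] (u x : L), Al u x →
  ∃ x', Al u x' ∧ ∀ D : Derivation ℂ L L, D x = x' * D u

/-- **abelian relations** -/
def WEB : Prop := ∀ (L : Type) [Field L] [Algebra ℂ L] (ι : Type) [Fintype ι] (u₀ : L) (u : ι → L)
  (φ₀ : ℕ → L) (φ : ι → ℕ → L), Transcendental ℂ u₀ → (∀ a, ¬ Al (u a) u₀) →
  (∀ i, Al u₀ (φ₀ i)) → (∀ a i, Al (u a) (φ a i)) →
  (∀ (D : Derivation ℂ L L) i, φ₀ i * D u₀ + ∑ a, φ a i * D (u a) = 0) →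
  ¬ LinearIndependent ℂ φ₀

/-- **the invariant differential is additive** -/
def LAM : Prop := ∀ (U : Ultrafilter ℕ) (L : Type) [Field L] [Algebra ℂ L]
  (π : (ℕ → ℂ) →ₐ[ℂ] L), Up U π → ∀ Λ, IsLat Λ → ∀ D : Derivation ℂ L L,
  ∃ lam : (ℕ → ℂ) →+ L, ∀ z, ((∀ᶠ n in (U : Filter ℕ), z n ∈ Λ) → lam z = 0) ∧
    ((∀ᶠ n in (U : Filter ℕ), z n ∉ Λ) →
      D (π fun n => wp Λ (z n)) = π (fun n => dwp Λ (z n)) * lam z)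

/-- descent of a relation to `ℚ` -/
def RAT : Prop := ∀ (U : Ultrafilter ℕ) (L : Type) [Field L] [Algebra ℂ L]
  (π : (ℕ → ℂ) →ₐ[ℂ] L), Up U π → ∀ x y : ℕ → Qb,
  Al (π fun n => io (x n)) (π fun n => io (y n)) → ∃ Ψ : ℚ[X][X], Ψ ≠ 0 ∧
    ∀ᶠ n in (U : Filter ℕ), (Ψ.map (mapRingHom (algebraMap ℚ Qb))).evalEval (x n) (y n) = 0

/-! ### analysis -/

/-- **the differential at the points `m τ`** -/
def TOP : Prop := ∀ N a A B w Λ F x y, 0 < N → Par N a A B w Λ F x y → F ∈ Hol →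
  ∀ (U : Ultrafilter ℕ) (L : Type) [Field L] [Algebra ℂ L] (π : (ℕ → ℂ) →ₐ[ℂ] L), Up U π →
  ∀ (m : ℕ) (τ τ' : ℕ → ℍ), 0 < m → (∀ n, (τ' n : ℂ) = m * τ n) →
  Transcendental ℂ (π fun n => jf (τ n)) → (∀ᶠ n in (U : Filter ℕ), F (τ' n) ∉ Λ) ∧
  ∃ φ, Al (π fun n => jf (τ n)) φ ∧ φ * π (fun n => dd jf (τ n)) = m * π (fun n => dd F (τ' n)) ∧
    ∀ (D : Derivation ℂ L L) l,
      D (π fun n => wp Λ (F (τ' n))) = π (fun n => dwp Λ (F (τ' n))) * l →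
      l = φ * D (π fun n => jf (τ n))

/-- independence near the cusp `0` -/
def ASY : Prop := ∀ N G a A B w Λ F x y, P004N.RN N G a → Par N a A B w Λ F x y →
  ∀ (U : Ultrafilter ℕ) (s : Finset ℕ) (c : ℕ → ℂ) (τ : ℕ → ℍ) (τ' : ℕ → ℕ → ℍ),
  (∀ m ∈ s, 0 < m ∧ ∀ n, (τ' m n : ℂ) = m * τ n) →
  Tendsto (fun n => (-1 / (τ n : ℂ)).im) U atTop →
  (∀ᶠ n in (U : Filter ℕ), ∑ m ∈ s, c m * dd F (τ' m n) = 0) → ∀ m ∈ s, c m = 0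

/-- **the argument of André** -/
def AND : Prop := ∀ (U : Ultrafilter ℕ) (ω : ℂ) (t n₀ : ℤ), 0 < ω.im → ω ^ 2 = t * ω - n₀ →
  ∀ c : ℕ → ℕ, Tendsto c U atTop → ∀ Ψ : ℂ[X][X], Ψ ≠ 0 → ∀ τ τ' : ℕ → ℕ → ℍ,
  (∀ k, ∃ κ : ℝ, 0 < κ ∧ ∀ᶠ n in (U : Filter ℕ), κ * c n ≤ (τ k n).im) →
  (∀ k, ∀ᶠ n in (U : Filter ℕ), Cm (c n * ω) (τ' k n) ∧
    Ψ.evalEval (jf (τ' k n)) (jf (τ k n)) = 0) →
  (∀ k k', k ≠ k' → ∀ᶠ n in (U : Filter ℕ), jf (τ' k n) ≠ jf (τ' k' n)) →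
  ∃ k a : ℕ, 0 < a ∧ ∀ᶠ n in (U : Filter ℕ), ∃ (b : ℤ) (z : ℍ),
    a * (z : ℂ) = c n * ω - b ∧ jf z = jf (τ' k n)

/-! ### complex multiplication -/

/-- ideals with cyclic quotient -/
def IDL : Prop := ∀ (O : Type) [CommRing O] (J : O →+* ℂ) (ω : O), Bs J ω →
  (∀ R : ℕ, 0 < R → ∃ (m : ℕ → ℕ) (A : ℕ → Ideal O),
    (∀ i, 1 < m i ∧ (m i).Coprime R ∧ Cn (m i) (A i)) ∧ ∀ i k, i ≠ k → (m i).Coprime (m k)) ∧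
  (∀ (N M : ℕ) (I I' : Ideal O), Cn N I → Cn M I' → N.Coprime M →
    Cn (N * M) (I * I') ∧ ∀ x ∈ I, x ∈ I' → x ∈ I * I') ∧
  ∀ (t n₀ : ℤ) (δ : ℕ), ω ^ 2 = t * ω - n₀ → 4 * n₀ - t ^ 2 = δ → Odd δ →
    Cn δ (Ideal.span {2 * ω - t})

/-- the points `m τ`, for all conductors -/
def PTS : Prop := (∀ (σ : ℂ ≃+* ℂ) (N m : ℕ) (τ τ' z z' : ℍ), 0 < N → 0 < m →
    Cj0 σ (N * m) τ τ' → (z : ℂ) = m * τ → (z' : ℂ) = m * τ' → Cj0 σ N z z') ∧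
  ∀ (K : Type) [Field K] [NumberField K] (j : K →+* Qb), Iq K → ∀ (η : 𝓞 K) (t n₀ : ℤ),
  Bs (JJ j) η → η ^ 2 = t * η - n₀ → ∀ (N m c : ℕ) (I I' : Ideal (𝓞 K)) (τ z : ℍ), 0 < N →
  0 < m → 0 < c → N.Coprime m → Cn N I → Cn m I' → η ∈ I → η ∈ I' →
  τ * (c * (t - JJ j η) : ℂ) = 1 → (z : ℂ) = m * τ →
  jf z = jL (st (JJ j) I' (Oc (JJ j) c)) ∧ ∀ g σ, Ar j c I' g → Ex σ g → Cj0 σ N τ z

/-- the singular moduli are not constant -/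
def TRA : Prop := ∀ (K : Type) [Field K] [NumberField K] (j : K →+* Qb), Iq K →
  ∀ (U : Ultrafilter ℕ) (L : Type) [Field L] [Algebra ℂ L] (π : (ℕ → ℂ) →ₐ[ℂ] L),
  (U : Filter ℕ) ≤ atTop → Up U π → ∀ (p : ℕ) (g : ℕ → GQ), 1 < p → (∀ n, g n ∈ GK j) →
  Transcendental ℂ (π fun n => io (g n (jc j (p ^ n))))

/-- **classes of bounded norm and order prime to `p` are ambiguous** -/
def CMA : Prop := ∀ (K : Type) [Field K] [NumberField K] (j : K →+* Qb), Iq K → Upm K →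
  ∀ (ω : 𝓞 K) (t n₀ : ℤ), Bs (JJ j) ω → ω ^ 2 = t * ω - n₀ → ∀ (p m a : ℕ) (U : Ultrafilter ℕ)
  (B : ℕ → Ideal (𝓞 K)) (A : Ideal (𝓞 K)), p.Prime → m.Coprime p → 0 < a →
  (U : Filter ℕ) ≤ atTop → Cop p A →
  (∀ n, Cop p (B n) ∧ ∃ (k : ℤ) (x : 𝓞 K), B n ^ m = Ideal.span {k + (p ^ n : ℕ) * x}) →
  (∀ᶠ n in (U : Filter ℕ), ∃ (b : ℤ) (z : ℍ), a * (z : ℂ) = (p ^ n : ℕ) * JJ j ω - b ∧
    jf z = jL (st (JJ j) (A * B n) (Oc (JJ j) (p ^ n)))) →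
  ∃ (d : ℕ) (E : Ideal (𝓞 K)), 0 < d ∧ d.Coprime p ∧ Cn d E ∧ 2 * ω - t ∈ E ∧
    ∀ᶠ n in (U : Filter ℕ),
      jL (st (JJ j) (B n) (Oc (JJ j) (p ^ n))) = jL (st (JJ j) E (Oc (JJ j) (p ^ n)))

/-- **independence outside the genus** -/
def PAIR : Prop := ∀ (K : Type) [Field K] [NumberField K] (j : K →+* Qb), Iq K → Upm K →
  ∀ (ω : 𝓞 K) (t n₀ : ℤ), Bs (JJ j) ω → ω ^ 2 = t * ω - n₀ →
  ∀ (U : Ultrafilter ℕ) (L : Type) [Field L] [Algebra ℂ L] (π : (ℕ → ℂ) →ₐ[ℂ] L),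
  (U : Filter ℕ) ≤ atTop → Up U π → ∀ (p m : ℕ) (g : ℕ → GQ), p.Prime → m.Coprime p →
  (∀ n, g n ∈ GK j ∧ g n ^ m ∈ Hc j (p ^ n)) →
  Al (π fun n => io (g n (jc j (p ^ n)))) (π fun n => io (jc j (p ^ n))) →
  ∃ (d : ℕ) (E : Ideal (𝓞 K)), 0 < d ∧ d.Coprime p ∧ Cn d E ∧ 2 * ω - t ∈ E ∧
    ∀ᶠ n in (U : Filter ℕ), Ar j (p ^ n) E (g n)

/-- bounded torsion -/
def TOR : Prop := ∀ (K : Type) [Field K] [NumberField K] (j : K →+* Qb), Iq K →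
  ∀ (A B : ℤ) (p : ℕ), 4 * A ^ 3 + 27 * B ^ 2 ≠ 0 → 0 < p → ∃ M : ℕ, 0 < M ∧
    ∀ n (y : Pt A B), (∀ g ∈ Hc j (p ^ n), ga g y = y) → IsOfFinAddOrder y → M • y = 0

/-- **the export** -/
def NV : Prop := ∀ (K : Type) [Field K] [NumberField K] (j : K →+* Qb), Iq K → Upm K →
  ∀ (ω : 𝓞 K) (t n₀ : ℤ) (δ : ℕ), Bs (JJ j) ω → ω ^ 2 = t * ω - n₀ → 4 * n₀ - t ^ 2 = δ → Odd δ →
  ∀ N G a A B w Λ F x y (I : Ideal (𝓞 K)), P004N.RN N G a → Par N a A B w Λ F x y → Cn N I →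
  N.Coprime δ → ∀ (p m r : ℕ) (Y : ℕ → Pt A B), p.Prime → m.Coprime p →
  (∀ n g σ τ τ', Ex σ g → Hp (JJ j) N I (p ^ n) τ → Cj0 σ N τ τ' → Un Λ (F τ') (ga g (Y n))) →
  ∀ᶠ n in atTop, ∀ (T : Finset GQ) (ε : GQ → ℤ), T.card ≤ r → T.Nonempty →
    (∀ g ∈ T, g ∈ GK j ∧ g ^ m ∈ Hc j (p ^ n) ∧ ε g ≠ 0 ∧ |ε g| ≤ r) →
    (∀ g ∈ T, ∀ g' ∈ T, g⁻¹ * g' ∈ Hc j (p ^ n) → g = g') →
    ¬ IsOfFinAddOrder (∑ g ∈ T, ε g • ga g (Y n))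

end Vale.Agent.P014Y.Nv
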