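import Mathlib

/-! Moments of a bounded p-adic measure: if they vanish on a dense set of exponents,
the measure is concentrated at 0. -/

namespace Vale.Agent.P014Y.Nv.Mom

open Filter Topology PowerSeries

variable {p : ℕ} [hp : Fact p.Prime]

/-- `K` meets every class mod `(p-1) p^n` in arbitrarily large elements. -/
def Dn (p : ℕ) (K : Set ℕ) : Prop :=
  ∀ n j N : ℕ, ∃ k ∈ K, N ≤ k ∧ k ≡ j [MOD (p - 1) * p ^ n]

omit hp in
theorem Dn.mono {K K' : Set ℕ} (h : Dn p K) (hK : K ⊆ K') : Dn p K' := fun n j N =>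
  let ⟨k, hk, h'⟩ := h n j N; ⟨k, hK hk, h'⟩

/-- a residue class to a modulus prime to `p (p-1)` is dense -/
theorem dn_prog {d : ℕ} (h : d.Coprime ((p - 1) * p)) (c : ℕ) : Dn p {k | k ≡ c [MOD d]} := by
  intro n j N
  have p1 := hp.out.one_lt
  have h' : d.Coprime ((p - 1) * p ^ n) :=
    Nat.Coprime.mul_right (h.coprime_mul_right_right) ((h.coprime_mul_left_right).pow_right n)
  have d0 : 0 < d := by
    rcases Nat.eq_zero_or_pos d with rfl | h0
    · have := (Nat.coprime_zero_left _).1 h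
      have := Nat.eq_one_of_mul_eq_one_left this
      omega
    · exact h0
  have m0 : 0 < (p - 1) * p ^ n := Nat.mul_pos (by omega) (by positivity)
  obtain ⟨k, h1, h2⟩ := Nat.chineseRemainder h' c j
  refine ⟨k + d * ((p - 1) * p ^ n) * N, ?_, ?_, ?_⟩
  · change _ ≡ _ [MOD d]
    rw [mul_assoc]
    exact (Nat.add_modulus_mul_modEq_iff ..).2 h1
  · nlinarith [Nat.mul_pos d0 m0]
  · rw [mul_comm d, mul_assoc ((p - 1) * p ^ n)]
    exact (Nat.add_modulus_mul_modEq_iff ..).2 h2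

/-- the coordinate function -/
noncomputable def xx (p : ℕ) [Fact p.Prime] : C(ℤ_[p], ℚ_[p]) :=
  ⟨fun x => (x : ℚ_[p]), continuous_subtype_val⟩

theorem xx_apply (x : ℤ_[p]) : xx p x = (x : ℚ_[p]) := rfl

theorem bsm : IsBoundedSMul ℤ_[p] ℚ_[p] :=
  .of_norm_smul_le fun r x => by
    rw [Algebra.smul_def, norm_mul]; exact le_rfl

theorem clo (i : ℕ) : IsClopen {x : ℤ_[p] | ‖x‖ ≤ (p : ℝ) ^ (-(i : ℤ))} := by
  have h : {x : ℤ_[p] | ‖x‖ ≤ (p : ℝ) ^ (-(i : ℤ))} = Metric.closedBall 0 ((p : ℝ) ^ (-(i : ℤ))) := by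
    ext x; simp
  rw [h]
  have : (0 : ℝ) < p := by exact_mod_cast hp.out.pos
  exact IsUltrametricDist.isClopen_closedBall _ (zpow_pos this _).ne'

/-- indicator of `p^i ℤ_p` -/
noncomputable def bl (p : ℕ) [Fact p.Prime] (i : ℕ) : C(ℤ_[p], ℚ_[p]) :=
  ⟨Set.indicator {x : ℤ_[p] | ‖x‖ ≤ (p : ℝ) ^ (-(i : ℤ))} fun _ => 1,
    (clo i).continuous_indicator continuous_const⟩

theorem bl_in {i : ℕ} {x : ℤ_[p]} (h : ‖x‖ ≤ (p : ℝ) ^ (-(i : ℤ))) : bl p i x = 1 := by
  simp only [bl, ContinuousMap.coe_mk]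
  exact Set.indicator_of_mem (s := {x : ℤ_[p] | ‖x‖ ≤ (p : ℝ) ^ (-(i : ℤ))}) h _

theorem bl_out {i : ℕ} {x : ℤ_[p]} (h : ¬ ‖x‖ ≤ (p : ℝ) ^ (-(i : ℤ))) : bl p i x = 0 := by
  simp only [bl, ContinuousMap.coe_mk]
  exact Set.indicator_of_notMem (s := {x : ℤ_[p] | ‖x‖ ≤ (p : ℝ) ^ (-(i : ℤ))}) h _

theorem bl_zero : bl p 0 = 1 := by
  ext x
  rw [bl_in (by simpa using x.norm_le_one)]; rfl

theorem euler (n : ℕ) {y : ℤ_[p]} (hy : ‖y‖ = 1) {j k : ℕ} (hjk : j ≤ k)
    (h : k ≡ j [MOD (p - 1) * p ^ n]) : ‖y ^ k - y ^ j‖ ≤ (p : ℝ) ^ (-((n + 1 : ℕ) : ℤ)) := by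
  obtain ⟨c, hc⟩ := (Nat.modEq_iff_dvd' hjk).1 h.symm
  have hk : k = j + (p - 1) * p ^ n * c := by omega
  rw [PadicInt.norm_le_pow_iff_mem_span_pow, ← PadicInt.ker_toZModPow, RingHom.mem_ker]
  have hu : IsUnit (PadicInt.toZModPow (n + 1) y) := (PadicInt.isUnit_iff.2 hy).map _
  obtain ⟨u, hu⟩ := hu
  have h1 : (u : ZMod (p ^ (n + 1))) ^ ((p - 1) * p ^ n) = 1 := by
    have := ZMod.pow_totient u
    rw [Nat.totient_prime_pow_succ hp.out, mul_comm] at this
    rw [← Units.val_pow_eq_pow_val, this, Units.val_one]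
  rw [map_sub, map_pow, map_pow, ← hu, hk, pow_add (u : ZMod (p ^ (n + 1))), pow_mul, h1, one_pow,
    mul_one, sub_self]

theorem approx (i n : ℕ) {j k : ℕ} (hjk : j ≤ k) (hn : n + 1 ≤ k)
    (h : k ≡ j [MOD (p - 1) * p ^ n]) :
    ‖((p : ℚ_[p]) ^ (i * k))⁻¹ • (xx p ^ k * bl p i) -
      ((p : ℚ_[p]) ^ (i * j))⁻¹ • (xx p ^ j * (bl p i - bl p (i + 1)))‖ ≤
      (p : ℝ) ^ (-((n + 1 : ℕ) : ℤ)) := by
  have p0 : (0 : ℝ) < p := by exact_mod_cast hp.out.pos
  have p1 : (1 : ℝ) < p := by exact_mod_cast hp.out.one_lt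
  have q0 : (p : ℚ_[p]) ≠ 0 := by exact_mod_cast hp.out.ne_zero
  rw [ContinuousMap.norm_le _ (zpow_pos p0 _).le]
  intro x
  simp only [ContinuousMap.sub_apply, ContinuousMap.smul_apply, ContinuousMap.mul_apply,
    ContinuousMap.pow_apply, smul_eq_mul]
  by_cases hx : ‖x‖ ≤ (p : ℝ) ^ (-(i : ℤ))
  · obtain ⟨y, hy⟩ := Ideal.mem_span_singleton'.1 ((PadicInt.norm_le_pow_iff_mem_span_pow x i).1 hx)
    have hxy : xx p x = (y : ℚ_[p]) * (p : ℚ_[p]) ^ i := by
      simp [xx_apply, ← hy]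
    have hnx : ‖x‖ = ‖y‖ * (p : ℝ) ^ (-(i : ℤ)) := by
      rw [← hy, norm_mul, PadicInt.norm_p_pow]
    have e : ∀ m : ℕ, ((p : ℚ_[p]) ^ (i * m))⁻¹ * xx p x ^ m = (y : ℚ_[p]) ^ m := by
      intro m
      rw [hxy, mul_pow, ← pow_mul]; field_simp
    rw [← mul_assoc, ← mul_assoc, e, e, bl_in hx]
    by_cases hx' : ‖x‖ ≤ (p : ℝ) ^ (-((i + 1 : ℕ) : ℤ))
    · rw [bl_in hx']
      have hy1 : ‖y‖ ≤ (p : ℝ) ^ (-1 : ℤ) := by
        rw [hnx] at hx'
        have : (p : ℝ) ^ (-((i + 1 : ℕ) : ℤ)) = (p : ℝ) ^ (-1 : ℤ) * (p : ℝ) ^ (-(i : ℤ)) := by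
          rw [← zpow_add₀ p0.ne']; congr 1; push_cast; ring
        rw [this] at hx'
        exact le_of_mul_le_mul_right hx' (zpow_pos p0 _)
      simp only [mul_one, sub_self, mul_zero, sub_zero, norm_pow]
      calc ‖(y : ℚ_[p])‖ ^ k ≤ ((p : ℝ) ^ (-1 : ℤ)) ^ k := pow_le_pow_left₀ (norm_nonneg _) hy1 k
        _ = (p : ℝ) ^ (-(k : ℤ)) := by rw [← zpow_natCast, ← zpow_mul]; congr 1; ring
        _ ≤ _ := zpow_le_zpow_right₀ p1.le (by omega)
    · rw [bl_out hx']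
      have hy1 : ‖y‖ = 1 := by
        by_contra hne
        have hlt : ‖y‖ < 1 := lt_of_le_of_ne y.norm_le_one hne
        have h2 : ‖y‖ ≤ (p : ℝ) ^ (-1 : ℤ) := by
          rw [PadicInt.norm_le_pow_iff_norm_lt_pow_add_one]; simpa using hlt
        apply hx'
        rw [hnx]
        have : (p : ℝ) ^ (-((i + 1 : ℕ) : ℤ)) = (p : ℝ) ^ (-1 : ℤ) * (p : ℝ) ^ (-(i : ℤ)) := by
          rw [← zpow_add₀ p0.ne']; congr 1; push_cast; ring
        rw [this]
        exact mul_le_mul_of_nonneg_right h2 (zpow_pos p0 _).le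
      have := euler n hy1 hjk h
      simp only [mul_one, sub_zero]
      exact_mod_cast this
  · have hx' : ¬ ‖x‖ ≤ (p : ℝ) ^ (-((i + 1 : ℕ) : ℤ)) := fun h' =>
      hx (h'.trans (zpow_le_zpow_right₀ p1.le (by omega)))
    rw [bl_out hx, bl_out hx']
    simp only [mul_zero, sub_self, norm_zero]
    exact (zpow_pos p0 _).le

variable {E : Type*} [NormedAddCommGroup E] [NormedSpace ℚ_[p] E]

/-- a continuous functional killing all monomials is zero -/
theorem dense (ν : C(ℤ_[p], ℚ_[p]) →L[ℚ_[p]] E) (h : ∀ j, ν (xx p ^ j) = 0) (φ) : ν φ = 0 := by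
  have := bsm (p := p)
  have hP : ∀ P : Polynomial ℚ_[p], ν (Polynomial.aeval (xx p) P) = 0 := by
    intro P
    rw [Polynomial.aeval_eq_sum_range, map_sum]
    exact Finset.sum_eq_zero fun i _ => by rw [map_smul, h, smul_zero]
  have hM : ∀ (a : ℚ_[p]) (n : ℕ), ν (PadicInt.mahlerTerm a n) = 0 := by
    intro a n
    have e : (PadicInt.mahlerTerm a n : C(ℤ_[p], ℚ_[p])) =
        (a * ((n.factorial : ℚ_[p]))⁻¹) • Polynomial.aeval (xx p) (descPochhammer ℚ_[p] n) := by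
      have hd : DenseRange (Nat.cast : ℕ → ℤ_[p]) := PadicInt.denseRange_natCast
      apply ContinuousMap.ext
      intro x
      refine congrFun (hd.equalizer (ContinuousMap.continuous _) (ContinuousMap.continuous _) ?_) x
      funext m
      have f0 : (n.factorial : ℚ_[p]) ≠ 0 := by exact_mod_cast n.factorial_ne_zero
      simp only [Function.comp, PadicInt.mahlerTerm_apply, mahler_natCast_eq,
        ContinuousMap.smul_apply, smul_eq_mul, Polynomial.aeval_continuousMap_apply]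
      have : xx p (m : ℤ_[p]) = (m : ℚ_[p]) := by simp [xx_apply]
      rw [this, descPochhammer_eval_eq_descFactorial, Nat.descFactorial_eq_factorial_mul_choose,
        Nat.cast_smul_eq_nsmul, nsmul_eq_mul]
      push_cast
      field_simp
    rw [e, map_smul, hP, smul_zero]
  have := (PadicInt.hasSum_mahler φ).mapL ν
  simp only [hM] at this
  exact this.unique hasSum_zero

/-- **Abstract form.** -/
theorem conc (μ : C(ℤ_[p], ℚ_[p]) →L[ℚ_[p]] E) {K : Set ℕ} (hK : Dn p K)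
    (h : ∀ k ∈ K, μ (xx p ^ k) = 0) (φ : C(ℤ_[p], ℚ_[p])) (h0 : φ 0 = 0) : μ φ = 0 := by
  have p0 : (0 : ℝ) < p := by exact_mod_cast hp.out.pos
  have p1 : (1 : ℝ) < p := by exact_mod_cast hp.out.one_lt
  have q0 : (p : ℚ_[p]) ≠ 0 := by exact_mod_cast hp.out.ne_zero
  have tz : Tendsto (fun n : ℕ => (p : ℝ) ^ (-(n : ℤ))) atTop (𝓝 0) := by
    simp only [zpow_neg, zpow_natCast, ← inv_pow]
    exact tendsto_pow_atTop_nhds_zero_of_lt_one (by positivity) (inv_lt_one_of_one_lt₀ p1)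
  have step : ∀ i : ℕ, ∀ ψ, μ ψ = μ (ψ * bl p i) := by
    intro i
    induction i with
    | zero => intro ψ; rw [bl_zero, mul_one]
    | succ i ih =>
      have hj : ∀ j, μ (xx p ^ j * (bl p i - bl p (i + 1))) = 0 := by
        intro j
        have : μ (((p : ℚ_[p]) ^ (i * j))⁻¹ • (xx p ^ j * (bl p i - bl p (i + 1)))) = 0 := by
          rw [← norm_le_zero_iff]
          have t2 : Tendsto (fun n : ℕ => ‖μ‖ * (p : ℝ) ^ (-((n + 1 : ℕ) : ℤ))) atTop (𝓝 0) := by
            have := (tz.comp (tendsto_add_atTop_nat 1)).const_mul ‖μ‖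
            rwa [mul_zero] at this
          refine ge_of_tendsto' t2 fun n => ?_
          obtain ⟨k, hk, hN, hc⟩ := hK n j (max j (n + 1))
          have a := approx (p := p) i n (le_of_max_le_left hN) (le_of_max_le_right hN) hc
          have b := μ.le_of_opNorm_le_of_le le_rfl a
          rw [map_sub, map_smul, ← ih, h k hk, smul_zero, zero_sub, norm_neg] at b
          exact b
        rw [map_smul, smul_eq_zero] at this
        exact this.resolve_left (inv_ne_zero (pow_ne_zero _ q0))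
      intro ψ
      have := dense (μ.comp ((ContinuousLinearMap.mul ℚ_[p] C(ℤ_[p], ℚ_[p])).flip
        (bl p i - bl p (i + 1)))) (fun j => hj j) ψ
      change μ (ψ * (bl p i - bl p (i + 1))) = 0 at this
      rw [mul_sub, map_sub] at this
      rw [ih ψ]
      exact sub_eq_zero.1 this
  rw [← norm_le_zero_iff]
  refine le_of_forall_pos_le_add fun ε hε => ?_
  have hδ : 0 < ε / (‖μ‖ + 1) := by positivity
  obtain ⟨δ, d0, hd⟩ := Metric.continuous_iff.1 φ.continuous 0 _ hδ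
  obtain ⟨i, hi⟩ := ((tz.eventually (gt_mem_nhds d0)).exists)
  have : ‖φ * bl p i‖ ≤ ε / (‖μ‖ + 1) := by
    rw [ContinuousMap.norm_le _ hδ.le]
    intro x
    rw [ContinuousMap.mul_apply]
    by_cases hx : ‖x‖ ≤ (p : ℝ) ^ (-(i : ℤ))
    · rw [bl_in hx, mul_one]
      have := hd x (by simpa using hx.trans_lt hi)
      rw [h0, dist_zero_right] at this
      exact this.le
    · rw [bl_out hx, mul_zero, norm_zero]; exact hδ.le
  rw [step i φ, zero_add]
  refine (μ.le_of_opNorm_le_of_le le_rfl this).trans ?_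
  rw [mul_div_assoc', div_le_iff₀ (by positivity)]
  nlinarith [norm_nonneg μ]

section Series

open scoped fwdDiff

variable {F : Type*} [NormedField F] [NormedAlgebra ℚ_[p] F] [IsUltrametricDist F] [CompleteSpace F]

omit [IsUltrametricDist F] [CompleteSpace F] in
theorem tz (a : ℕ → F) {C : ℝ} (ha : ∀ n, ‖a n‖ ≤ C) (φ : C(ℤ_[p], ℚ_[p])) :
    Tendsto (fun n => (Δ_[1] ^[n] φ 0) • a n) atTop (𝓝 0) := by
  have := bsm (p := p)
  have h := (PadicInt.fwdDiff_tendsto_zero φ).norm.mul_const C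
  rw [norm_zero, zero_mul] at h
  refine squeeze_zero_norm (fun n => ?_) h
  rw [norm_smul]
  exact mul_le_mul_of_nonneg_left (ha n) (norm_nonneg _)

theorem sm (a : ℕ → F) {C : ℝ} (ha : ∀ n, ‖a n‖ ≤ C) (φ : C(ℤ_[p], ℚ_[p])) :
    Summable fun n => (Δ_[1] ^[n] φ 0) • a n :=
  NonarchimedeanAddGroup.summable_of_tendsto_cofinite_zero
    (by rw [Nat.cofinite_eq_atTop]; exact tz a ha φ)

/-- the measure with Mahler moments `a` -/
theorem ex_mu (a : ℕ → F) {C : ℝ} (ha : ∀ n, ‖a n‖ ≤ C) :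
    ∃ μ : C(ℤ_[p], ℚ_[p]) →L[ℚ_[p]] F, ∀ φ, μ φ = ∑' n, (Δ_[1] ^[n] φ 0) • a n := by
  have C0 : 0 ≤ C := (norm_nonneg _).trans (ha 0)
  let L : C(ℤ_[p], ℚ_[p]) →ₗ[ℚ_[p]] F :=
    { toFun := fun φ => ∑' n, (Δ_[1] ^[n] φ 0) • a n
      map_add' := fun φ ψ => by
        rw [← (sm a ha φ).tsum_add (sm a ha ψ)]
        refine tsum_congr fun n => ?_
        rw [ContinuousMap.coe_add, fwdDiff_iter_add, Pi.add_apply, add_smul]
      map_smul' := fun c φ => by
        rw [RingHom.id_apply, ← (sm a ha φ).tsum_const_smul]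
        refine tsum_congr fun n => ?_
        rw [ContinuousMap.coe_smul, fwdDiff_iter_const_smul, Pi.smul_apply, smul_assoc] }
  refine ⟨L.mkContinuous C fun φ => ?_, fun φ => rfl⟩
  refine IsUltrametricDist.norm_tsum_le_of_forall_le_of_nonneg (by positivity) fun n => ?_
  rw [norm_smul, mul_comm]
  exact mul_le_mul (ha n) (IsUltrametricDist.norm_fwdDiff_iter_apply_le 1 φ 0 n) (norm_nonneg _) C0

theorem diff_mul {R : Type*} [CommRing R] (f : ℤ_[p] → R) (ι : ℤ_[p] →+* R) (n : ℕ) (x : ℤ_[p]) :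
    Δ_[1] ^[n + 1] (fun y => ι y * f y) x =
      ι x * Δ_[1] ^[n + 1] f x + (n + 1 : ℕ) * (Δ_[1] ^[n] f x + Δ_[1] ^[n + 1] f x) := by
  induction n generalizing x with
  | zero => simp [fwdDiff]; ring
  | succ n ih =>
    have e : ∀ (g : ℤ_[p] → R) (m : ℕ) (y : ℤ_[p]),
        Δ_[1] ^[m + 1] g y = Δ_[1] ^[m] g (y + 1) - Δ_[1] ^[m] g y := by
      intro g m y; rw [Function.iterate_succ_apply']; rfl
    rw [e _ (n + 1), ih, ih]
    have h1 := e f n x
    have h2 := e f (n + 1) x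
    have h1' : Δ_[1] ^[n] f (x + 1) = Δ_[1] ^[n + 1] f x + Δ_[1] ^[n] f x := by rw [h1]; ring
    have h2' : Δ_[1] ^[n + 1] f (x + 1) = Δ_[1] ^[n + 1 + 1] f x + Δ_[1] ^[n + 1] f x := by
      rw [h2]; ring
    rw [h1', h2', map_add, map_one]
    push_cast
    ring

/-- the invariant derivation `(1 + T) d/dT` -/
noncomputable def th {R : Type*} [CommRing R] (g : R⟦X⟧) : R⟦X⟧ := (1 + X) * d⁄dX R g

theorem coeff_th {R : Type*} [CommRing R] (g : R⟦X⟧) (n : ℕ) :
    coeff n (th g) = (n + 1 : ℕ) * coeff (n + 1) g + n * coeff n g := by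
  rw [th, add_mul, one_mul, map_add, coeff_derivative]
  cases n with
  | zero => simp
  | succ n => rw [coeff_succ_X_mul, coeff_derivative]; push_cast; ring

omit [IsUltrametricDist F] [CompleteSpace F] in
theorem mom_sum (k : ℕ) (g : F⟦X⟧) :
    ∑ n ∈ Finset.range (k + 1), (Δ_[1] ^[n] (fun x : ℤ_[p] => (x : ℚ_[p]) ^ k) 0) • coeff n g =
      constantCoeff (th^[k] g) := by
  induction k generalizing g with
  | zero => simp
  | succ k ih =>
    rw [Function.iterate_succ_apply, ← ih (th g), Finset.sum_range_succ']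
    have e : (fun x : ℤ_[p] => (x : ℚ_[p]) ^ (k + 1)) =
        fun x : ℤ_[p] => (PadicInt.Coe.ringHom x) * (x : ℚ_[p]) ^ k := by
      funext x; rw [pow_succ']; rfl
    have z : Δ_[1] ^[k + 1] (fun x : ℤ_[p] => (x : ℚ_[p]) ^ k) 0 = 0 := by
      have := congrFun (fwdDiff_iter_pow_eq_zero_of_lt (R := ℚ_[p]) (Nat.lt_succ_self k)) 0
      rw [fwdDiff_iter_eq_sum_shift] at this ⊢
      simpa using this
    simp only [e, diff_mul, coeff_th, map_zero, zero_mul, zero_add, Function.iterate_zero, id,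
      zero_smul, add_zero, mul_add, add_smul, smul_add, Finset.sum_add_distrib]
    congr 1
    · refine Finset.sum_congr rfl fun n _ => ?_
      rw [mul_comm, mul_smul, Nat.cast_smul_eq_nsmul, nsmul_eq_mul]
    · rw [Finset.sum_range_succ, z, Finset.sum_range_succ']
      simp only [mul_zero, zero_smul, add_zero, Nat.cast_zero, zero_mul, smul_zero]
      refine Finset.sum_congr rfl fun n _ => ?_
      rw [mul_comm, mul_smul, Nat.cast_smul_eq_nsmul, nsmul_eq_mul]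

omit [IsUltrametricDist F] [CompleteSpace F] in
theorem mu_pow (g : F⟦X⟧) (μ : C(ℤ_[p], ℚ_[p]) →L[ℚ_[p]] F)
    (hμ : ∀ φ, μ φ = ∑' n, (Δ_[1] ^[n] φ 0) • coeff n g) (k : ℕ) :
    μ (xx p ^ k) = constantCoeff (th^[k] g) := by
  rw [hμ, ← mom_sum (p := p) k g]
  refine tsum_eq_sum fun m hm => ?_
  have : Δ_[1] ^[m] (fun x : ℤ_[p] => (x : ℚ_[p]) ^ k) 0 = 0 := by
    have := congrFun (fwdDiff_iter_pow_eq_zero_of_lt (R := ℚ_[p]) (j := k) (n := m)
      (by simpa using hm)) 0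
    rw [fwdDiff_iter_eq_sum_shift] at this ⊢
    simpa using this
  change (Δ_[1] ^[m] (fun x : ℤ_[p] => (x : ℚ_[p]) ^ k) 0) • _ = 0
  rw [this, zero_smul]

/-- **MOM, one parity.** If the moments of parity `e` vanish on a dense set, all positive moments
of parity `e` vanish. -/
theorem mom_par (g : F⟦X⟧) {C : ℝ} (hg : ∀ n, ‖coeff n g‖ ≤ C) {K : Set ℕ} (hK : Dn p K) (e : ℕ)
    (h : ∀ k ∈ K, Even (k + e) → constantCoeff (th^[k] g) = 0) (k : ℕ) (hk : k ≠ 0)
    (he : Even (k + e)) : constantCoeff (th^[k] g) = 0 := by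
  obtain ⟨μ, hμ⟩ := ex_mu (p := p) (fun n => coeff n g) hg
  let ng : C(ℤ_[p], ℤ_[p]) := ⟨fun x => -x, continuous_neg⟩
  let N : C(ℤ_[p], ℚ_[p]) →L[ℚ_[p]] C(ℤ_[p], ℚ_[p]) := ContinuousMap.compCLM ℚ_[p] ℚ_[p] ng
  have hN : ∀ j, N (xx p ^ j) = ((-1 : ℚ_[p]) ^ j) • xx p ^ j := by
    intro j
    ext x
    change xx p (-x) ^ j = (-1) ^ j * xx p x ^ j
    rw [xx_apply, xx_apply, ← mul_pow]; simp
  have hv : ∀ j, (μ + ((-1 : ℚ_[p]) ^ e) • μ.comp N) (xx p ^ j) =
      (1 + (-1 : ℚ_[p]) ^ (j + e)) • constantCoeff (th^[j] g) := by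
    intro j
    simp only [add_apply, smul_apply,
      ContinuousLinearMap.comp_apply, hN, map_smul, mu_pow g μ hμ, add_smul, one_smul, smul_smul]
    rw [pow_add, mul_comm]
  have := conc (μ + ((-1 : ℚ_[p]) ^ e) • μ.comp N) hK (fun j hj => by
    rw [hv]
    rcases Nat.even_or_odd (j + e) with h' | h'
    · rw [h j hj h', smul_zero]
    · rw [h'.neg_one_pow, add_neg_cancel, zero_smul]) (xx p ^ k) (by simp [xx_apply, hk])
  rw [hv, he.neg_one_pow, smul_eq_zero] at this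
  exact this.resolve_left (by norm_num)

/-- **MOM.** A bounded series whose moments vanish on a dense set of exponents is constant. -/
theorem mom (g : F⟦X⟧) {C : ℝ} (hg : ∀ n, ‖coeff n g‖ ≤ C) {K : Set ℕ} (hK : Dn p K)
    (h : ∀ k ∈ K, constantCoeff (th^[k] g) = 0) (n : ℕ) (hn : n ≠ 0) : coeff n g = 0 := by
  have := bsm (p := p)
  obtain ⟨μ, hμ⟩ := ex_mu (p := p) (fun n => coeff n g) hg
  have h1 : ∀ k ∈ K, μ (xx p ^ k) = 0 := by
    intro k hk
    rw [mu_pow g μ hμ, h k hk]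
  have h2 := conc μ hK h1 (PadicInt.mahlerTerm (1 : ℚ_[p]) n) (by
    have := mahler_natCast_eq (p := p) n 0
    rw [Nat.cast_zero] at this
    rw [PadicInt.mahlerTerm_apply, this, Nat.choose_eq_zero_of_lt (Nat.pos_of_ne_zero hn)]
    simp)
  have h3 : ∀ m, Δ_[1] ^[m] (PadicInt.mahlerTerm (1 : ℚ_[p]) n : C(ℤ_[p], ℚ_[p])) 0 =
      if m = n then 1 else 0 := by
    intro m
    have := fwdDiff_iter_choose_zero n m
    rw [fwdDiff_iter_eq_sum_shift] at this ⊢
    have := congrArg (Int.cast : ℤ → ℚ_[p]) this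
    simp only [zero_add, nsmul_eq_mul, mul_one, PadicInt.mahlerTerm_apply, mahler_natCast_eq,
      Nat.cast_id] at this ⊢
    push_cast at this
    rw [← this]
    refine Finset.sum_congr rfl fun i _ => ?_
    simp [Nat.cast_smul_eq_nsmul]
  rw [hμ, tsum_eq_single n (fun m hm => by rw [h3, if_neg hm, zero_smul]), h3, if_pos rfl,
    one_smul] at h2
  exact h2

end Series

theorem cc_subst {R : Type*} [CommRing R] (f : R⟦X⟧) {a : R⟦X⟧} (ha : constantCoeff a = 0) :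
    constantCoeff (f.subst a : R⟦X⟧) = constantCoeff f := by
  have hs := HasSubst.of_constantCoeff_zero' ha
  have h := constantCoeff_subst_eq_zero (a := a) ha (f - C (constantCoeff f)) (by simp)
  rw [subst_sub hs, subst_C, map_sub, sub_eq_zero] at h
  exact h

/-- the moments are the Taylor coefficients in the logarithmic coordinate -/
theorem th_exp {R : Type*} [CommRing R] [Algebra ℚ R] (g : R⟦X⟧) (k : ℕ) :
    constantCoeff (th^[k] g) = k.factorial * coeff k (g.subst (exp R - 1)) := by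
  have hs : HasSubst (exp R - 1) := HasSubst.exp_sub_one
  have d1 : ∀ g : R⟦X⟧, d⁄dX R (g.subst (exp R - 1)) = (th g).subst (exp R - 1) := by
    intro g
    rw [derivative_subst hs, th, subst_mul hs, subst_add hs, subst_X hs, map_sub, derivative_exp,
      derivative_one, sub_zero, ← coe_substAlgHom hs, map_one]
    ring
  have dk : ∀ k (g : R⟦X⟧), (d⁄dX R)^[k] (g.subst (exp R - 1)) = (th^[k] g).subst (exp R - 1) := by
    intro k
    induction k with
    | zero => intro g; rfl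
    | succ k ih => intro g; rw [Function.iterate_succ_apply, d1, ih, Function.iterate_succ_apply]
  have := constantCoeff_iterate_derivative (g.subst (exp R - 1) : R⟦X⟧) k
  rw [dk] at this
  rw [← this, cc_subst _ (by simp)]

end Vale.Agent.P014Y.Nv.Mom
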